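import Vale.Agent.P119.H369.Lln
import Vale.Agent.P119.KE.Datum

/-!
# The assembly
-/

open MeasureTheory Filter Topology Set
open scoped ENNReal

namespace Vale.Agent.P119.H369

theorem goodDatum_of {β : ℝ} (hβ : 0 < β) {f₀ : Phase → ℝ} (h : IsDatum Bridge.lat β f₀) :
    ∃ κ, GoodDatum f₀ κ := by
  have hd := h.stmt
  have hd' := Bridge.isDatum_of hd
  have hβ' : 0 < 2 * β / 2 := by positivity
  obtain ⟨C, hC0, hC⟩ : ∃ C : ℝ, 0 ≤ C ∧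
      ∀ x v : E3, Real.exp (2 * (2 * β / 2) * ‖v‖ ^ 2) * f₀ (x, v) ≤ C := by
    refine ⟨(gnorm (2 * (2 * β / 2)) f₀).toReal, ENNReal.toReal_nonneg, fun x v => ?_⟩
    obtain ⟨k, hk⟩ := KE.exists_latPt x
    have h1 : ENNReal.ofReal (Real.exp (2 * (2 * β / 2) * ‖v‖ ^ 2) * ‖f₀ (x, v)‖) ≤
        gnorm (2 * (2 * β / 2)) f₀ :=
      (le_iSup₂_of_le (f := fun (z : Ph) (_ : ‖z.1 - latPt k‖ ≤ 1) =>
        ENNReal.ofReal (Real.exp (2 * (2 * β / 2) * ‖z.2‖ ^ 2) * ‖f₀ z‖)) (x, v) hk le_rfl).trans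
        (ENNReal.le_tsum k)
    have h2 := (ENNReal.ofReal_le_iff_le_toReal hd'.norm_lt.ne).1 h1
    refine le_trans ?_ h2
    gcongr
    exact Real.le_norm_self _
  refine ⟨kap (2 * β / 2) C, ?_⟩
  have := goodDatum_free hβ' hd' hC0 hC 0
  have h0' : free f₀ 0 = f₀ := by
    funext z
    simp [free]
  rwa [h0'] at this

/-- The law of large numbers. -/
theorem tendsto_deviation {Ψ : E3 → ℝ} (hΨ : Vale.Agent.P119.IsPotential Ψ) {f₀ : Ph → ℝ} {κ : ℝ}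
    (h : GoodDatum f₀ κ) {z : ℝ → (N : ℕ) → (Fin N → Phase) → ℝ → Fin N → Phase}
    (hz : ∀ ε : ℝ, 0 < ε → IsGasFlow (gradient Ψ) ε (z ε)) {T : ℝ} {f : ℝ → Phase → ℝ}
    (hfm : ∀ t ∈ Icc 0 T, Measurable (f t)) (hf0 : ∀ t ∈ Icc 0 T, ∀ ζ, 0 ≤ f t ζ)
    (hfi : ∀ t ∈ Icc 0 T, Integrable (f t)) (hf1 : ∀ t ∈ Icc 0 T, ∫ ζ, f t ζ = 1)
    (hK : ∀ s : ℕ, Stmt.KineticLimit (gradient Ψ) f₀ T f s) :
    Tendsto (fun ε => ⨆ t ∈ Icc 0 T, ⨆ (a : Phase → ℝ) (_ : Measurable a) (_ : ∀ ζ, |a ζ| ≤ 1),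
        expectation f₀ ε (fun N Z =>
          ENNReal.ofReal ((ε ^ 2 * ∑ i, a (z ε N Z t i) - ∫ ζ, a ζ * f t ζ) ^ 2)))
      (𝓝[>] 0) (𝓝 0) := by
  classical
  have hex : ∀ (s : ℕ), ∃ F : ℝ → ℝ → (Fin s → Phase) → ℝ, ∀ ε ∈ Ioo (0 : ℝ) 1, ∀ t ∈ Icc 0 T,
      IsMarginal f₀ ε (z ε) t s (F ε t) ∧ ∫⁻ ζ, ENNReal.ofReal (F ε t ζ) ≤ 1 := by
    intro s
    have h1 : ∀ ε t : ℝ, ∃ F : (Fin s → Phase) → ℝ, ε ∈ Ioo (0 : ℝ) 1 → t ∈ Icc 0 T →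
        IsMarginal f₀ ε (z ε) t s F ∧ ∫⁻ ζ, ENNReal.ofReal (F ζ) ≤ 1 := by
      intro ε t
      by_cases hc : ε ∈ Ioo (0 : ℝ) 1 ∧ t ∈ Icc 0 T
      · obtain ⟨F, hF⟩ := exists_isMarginal hΨ h hc.1.1 hc.2.1 (hz ε hc.1.1) s
        exact ⟨F, fun _ _ => hF⟩
      · exact ⟨0, fun h1 h2 => absurd ⟨h1, h2⟩ hc⟩
    choose F hF using h1
    exact ⟨F, fun ε hε t ht => hF ε t hε ht⟩
  obtain ⟨F₁, hF₁⟩ := hex 1
  obtain ⟨F₂, hF₂⟩ := hex 2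
  have l1 := tendsto_of_kineticLimit hΨ h hz (hK 1) F₁ fun ε hε t ht => (hF₁ ε hε t ht).1
  have l2 := tendsto_of_kineticLimit hΨ h hz (hK 2) F₂ fun ε hε t ht => (hF₂ ε hε t ht).1
  have l3 : Tendsto (fun ε : ℝ => ENNReal.ofReal (ε ^ 2)) (𝓝[>] 0) (𝓝 0) := by
    have e1 : Tendsto (fun ε : ℝ => ε ^ 2) (𝓝[>] 0) (𝓝 0) := by
      have : Tendsto (fun ε : ℝ => ε ^ 2) (𝓝 0) (𝓝 (0 ^ 2)) := (continuous_pow 2).tendsto 0
      rw [zero_pow two_ne_zero] at this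
      exact this.mono_left nhdsWithin_le_nhds
    have e2 := (ENNReal.continuous_ofReal.tendsto 0).comp e1
    rwa [ENNReal.ofReal_zero] at e2
  have l4 : Tendsto (fun ε : ℝ => 4 * ((⨆ t ∈ Icc 0 T, ∫⁻ ζ, ‖F₂ ε t ζ - ∏ k, f t (ζ k)‖ₑ) +
      ENNReal.ofReal (ε ^ 2) + 2 * ⨆ t ∈ Icc 0 T, ∫⁻ ζ, ‖F₁ ε t ζ - ∏ k, f t (ζ k)‖ₑ))
      (𝓝[>] 0) (𝓝 0) := by
    have e1 := ENNReal.Tendsto.const_mul (a := 2) l1 (Or.inr (by norm_num))
    have e2 := (l2.add l3).add e1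
    have e3 := ENNReal.Tendsto.const_mul (a := 4) e2 (Or.inr (by norm_num))
    simpa only [mul_zero, add_zero] using e3
  refine tendsto_of_tendsto_of_tendsto_of_le_of_le' tendsto_const_nhds l4
    (Eventually.of_forall fun _ => zero_le) ?_
  filter_upwards [Ioo_mem_nhdsGT (show (0 : ℝ) < 1 by norm_num)] with ε hε
  refine iSup₂_le fun t ht => iSup_le fun a => iSup_le fun ham => iSup_le fun ha => ?_
  refine (lln_bounded hΨ h hε.1 ht.1 (hz ε hε.1) (hF₁ ε hε t ht).1 (hF₂ ε hε t ht).1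
    (hF₁ ε hε t ht).2 (hfm t ht) (hf0 t ht) (hfi t ht) (hf1 t ht) ham ha).trans ?_
  gcongr
  · exact le_iSup₂_of_le (f := fun t (_ : t ∈ Icc 0 T) => ∫⁻ ζ, ‖F₂ ε t ζ - ∏ k, f t (ζ k)‖ₑ)
      t ht le_rfl
  · exact le_iSup₂_of_le (f := fun t (_ : t ∈ Icc 0 T) => ∫⁻ ζ, ‖F₁ ε t ζ - ∏ k, f t (ζ k)‖ₑ)
      t ht le_rfl

/-- Two limits of the first marginal agree. -/
theorem eq_of_limits {Ψ : E3 → ℝ} {f₀ : Ph → ℝ} {T : ℝ} {f g : ℝ → Phase → ℝ}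
    (hf : Stmt.KineticLimit (gradient Ψ) f₀ T f 1) (hg : Stmt.KineticLimit (gradient Ψ) f₀ T g 1)
    {t : ℝ} (ht : t ∈ Icc 0 T) (hfc : Continuous (f t)) (hgc : Continuous (g t)) :
    g t = f t := by
  classical
  obtain ⟨F, hF, hlF⟩ := hf
  obtain ⟨G, hG, hlG⟩ := hg
  have hFc : Continuous fun ζ : Fin 1 → Phase => ∏ k, f t (ζ k) :=
    continuous_finsetProd _ fun k _ => hfc.comp (continuous_apply k)
  have hGc : Continuous fun ζ : Fin 1 → Phase => ∏ k, g t (ζ k) :=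
    continuous_finsetProd _ fun k _ => hgc.comp (continuous_apply k)
  set d : ℝ≥0∞ := ∫⁻ ζ : Fin 1 → Phase, ‖(∏ k, g t (ζ k)) - ∏ k, f t (ζ k)‖ₑ with hd
  have hle : ∀ ε ∈ Ioo (0 : ℝ) 1, d ≤
      (⨆ t ∈ Icc 0 T, Stmt.l1Dist (G ε t) (fun z => ∏ k, g t (z k))) +
        ⨆ t ∈ Icc 0 T, Stmt.l1Dist (F ε t) (fun z => ∏ k, f t (z k)) := by
    intro ε hε
    have hFG : G ε t =ᵐ[volume] F ε t := represents_unique (hG ε hε t ht) (hF ε hε t ht)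
    have e1 : d ≤ Stmt.l1Dist (G ε t) (fun z => ∏ k, g t (z k)) +
        Stmt.l1Dist (F ε t) (fun z => ∏ k, f t (z k)) := by
      have hGm : AEMeasurable (fun ζ => ‖G ε t ζ - ∏ k, g t (ζ k)‖ₑ) volume :=
        ((hG ε hε t ht).1.aestronglyMeasurable.sub hGc.aestronglyMeasurable).enorm
      unfold Stmt.l1Dist
      rw [hd, ← lintegral_add_left' hGm]
      refine lintegral_mono_ae ?_
      filter_upwards [hFG] with ζ hζ
      have e2 : (∏ k, g t (ζ k)) - ∏ k, f t (ζ k) =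
          -(G ε t ζ - ∏ k, g t (ζ k)) + (F ε t ζ - ∏ k, f t (ζ k)) := by
        rw [hζ]
        ring
      rw [e2]
      refine (enorm_add_le _ _).trans ?_
      rw [enorm_neg]
    refine e1.trans (add_le_add ?_ ?_)
    · exact le_iSup₂_of_le (f := fun t (_ : t ∈ Icc 0 T) =>
        Stmt.l1Dist (G ε t) (fun z => ∏ k, g t (z k))) t ht le_rfl
    · exact le_iSup₂_of_le (f := fun t (_ : t ∈ Icc 0 T) =>
        Stmt.l1Dist (F ε t) (fun z => ∏ k, f t (z k))) t ht le_rfl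
  have hlim := hlG.add hlF
  rw [add_zero] at hlim
  have hd0 : d ≤ 0 := ge_of_tendsto hlim (by
    filter_upwards [Ioo_mem_nhdsGT (show (0 : ℝ) < 1 by norm_num)] with ε hε
    exact hle ε hε)
  have hd1 : d = 0 := le_antisymm hd0 zero_le
  have hm : AEMeasurable (fun ζ : Fin 1 → Phase => ‖(∏ k, g t (ζ k)) - ∏ k, f t (ζ k)‖ₑ) volume :=
    (hGc.sub hFc).enorm.measurable.aemeasurable
  have hae := (lintegral_eq_zero_iff' hm).1 hd1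
  have hae' : (fun ζ : Fin 1 → Phase => ∏ k, g t (ζ k)) =ᵐ[volume]
      fun ζ => ∏ k, f t (ζ k) := by
    filter_upwards [hae] with ζ hζ
    have : (∏ k, g t (ζ k)) - ∏ k, f t (ζ k) = 0 := enorm_eq_zero.1 hζ
    linarith
  have h2 := (volume_preserving_funUnique (Fin 1) Phase).symm.quasiMeasurePreserving.ae hae'
  have h3 : g t =ᵐ[volume] f t := by
    filter_upwards [h2] with ζ hζ
    simpa using hζ
  exact (hgc.ae_eq_iff_eq volume hfc).1 h3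

/-- The whole statement, from `Stmt.QuestionOne`. -/
theorem main_of (hQ : Stmt.QuestionOne (E := E3) Bridge.lat) :
    BoltzmannGradLimit (E := V3) Bridge.lat := by
  intro Φ β T f₀ hΦ hβ hT hf₀
  obtain ⟨Ψ, hΨS, hΨe, hgrad⟩ := hΦ.exists_rep
  have hΨ := Bridge.isPotential_of hΨS
  obtain ⟨κ, h⟩ := goodDatum_of hβ hf₀
  rw [hgrad]
  refine ⟨fun ε hε N Z hZ => newton_unique hΨ hε hZ, fun z hz =>
    ⟨fun ε hε t ht s => exists_isMarginal hΨ h hε ht (hz ε hε) s, fun hst f hf => ?_⟩⟩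
  have hK : ∀ g, IsKinetic (gradient Ψ) β f₀ T g → ∀ s : ℕ,
      Stmt.KineticLimit (gradient Ψ) f₀ T g s := fun g hg =>
    (hQ Ψ (2 * β) T f₀ hΨS (hst.congr hΨe) (by positivity) hT hf₀.stmt).2 g hg.stmt
  have hcont : ∀ g, IsKinetic (gradient Ψ) β f₀ T g → ∀ t ∈ Icc 0 T, Continuous (g t) := by
    intro g hg t ht
    have h1 : Continuous fun ζ : Phase => (t, ζ) := by fun_prop
    exact hg.continuous.comp_continuous h1 fun ζ => ⟨ht, mem_univ _⟩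
  refine ⟨fun s F hF => tendsto_of_kineticLimit hΨ h hz (hK f hf s) F hF, ?_,
    fun g hg t ht => eq_of_limits (hK f hf 1) (hK g hg 1) ht (hcont f hf t ht)
      (hcont g hg t ht)⟩
  exact tendsto_deviation hΨ h hz (fun t ht => (hcont f hf t ht).measurable) hf.nonneg
    hf.integrable hf.mass (hK f hf)

end Vale.Agent.P119.H369
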