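import Vale.Agent.P119.H369.Defs
import Vale.Agent.P119.Bdl.B4
import Vale.Agent.P119.END.Statement

/-!
# Bridge between the two sets of definitions
-/

open MeasureTheory Filter Topology Set
open scoped ENNReal RealInnerProductSpace

namespace Vale.Agent.P119.H369

/-- Positions and velocities live in `ℝ³`. -/
abbrev V3 := EuclideanSpace ℝ (Fin 3)

/-- One-particle phase space. -/
abbrev Phase := V3 × V3

/-! ### potentials -/

/-- A radial `C¹` function has zero gradient at the origin. -/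
theorem gradient_zero_of_radial {Ψ : V3 → ℝ} (hr : ∀ x y, x ≠ 0 → y ≠ 0 → ‖x‖ = ‖y‖ → Ψ x = Ψ y)
    (hd : DifferentiableAt ℝ Ψ 0) : gradient Ψ 0 = 0 := by
  have heven : ∀ x, Ψ (-x) = Ψ x := by
    intro x
    by_cases hx : x = 0
    · subst hx
      simp
    · exact hr _ _ (neg_ne_zero.2 hx) hx (norm_neg x)
  have h1 : fderiv ℝ Ψ 0 = -fderiv ℝ Ψ 0 := by
    have h2 : (fun x => Ψ (-x)) = Ψ := funext heven
    have h3 : HasFDerivAt (fun x => Ψ (-x)) ((fderiv ℝ Ψ 0).comp (-(ContinuousLinearMap.id ℝ V3))) 0 := by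
      have h4 : HasFDerivAt (fun x : V3 => -x) (-(ContinuousLinearMap.id ℝ V3)) 0 :=
        (hasFDerivAt_id (0 : V3)).neg
      have h5 : HasFDerivAt Ψ (fderiv ℝ Ψ 0) (-(0 : V3)) := by
        rw [neg_zero]
        exact hd.hasFDerivAt
      exact h5.comp 0 h4
    rw [h2] at h3
    have h6 := h3.fderiv
    conv_lhs => rw [h6]
    ext x
    simp
  have h2 : fderiv ℝ Ψ 0 = 0 := by
    have : (2 : ℝ) • fderiv ℝ Ψ 0 = 0 := by
      rw [two_smul]
      nth_rewrite 1 [h1]
      exact neg_add_cancel _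
    exact (smul_eq_zero.1 this).resolve_left two_ne_zero
  rw [gradient, h2, map_zero]

/-- The canonical representative of a potential. -/
theorem IsPotential.exists_rep {Φ : V3 → ℝ} (h : IsPotential Φ) :
    ∃ Ψ : V3 → ℝ, Stmt.IsPotential Ψ ∧ (∀ x, x ≠ 0 → Ψ x = Φ x) ∧ gradient Φ = gradient Ψ := by
  rcases h.core with ⟨Ψ, hΨ, he⟩ | ⟨h1, h2⟩
  · have hrad : ∀ x y, x ≠ 0 → y ≠ 0 → ‖x‖ = ‖y‖ → Ψ x = Ψ y := fun x y hx hy hxy => by
      rw [he x hx, he y hy]
      exact h.radial x y hx hy hxy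
    refine ⟨Ψ, ⟨fun x y hx hxy => ?_, fun x hx => ?_, Or.inl hΨ⟩, he, ?_⟩
    · have hy : y ≠ 0 := by
        rintro rfl
        rw [norm_zero, norm_eq_zero] at hxy
        exact hx hxy
      exact hrad x y hx hy hxy
    · have hx0 : x ≠ 0 := by
        rintro rfl
        rw [norm_zero] at hx
        linarith
      rw [he x hx0]
      exact h.finite_range x hx
    · funext x
      by_cases hx : x = 0
      · subst hx
        have hΨ0 : DifferentiableAt ℝ Ψ 0 := (hΨ.differentiable (by norm_num)).differentiableAt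
        rw [gradient_zero_of_radial hrad hΨ0]
        by_cases hΦ0 : DifferentiableAt ℝ Φ 0
        · exact gradient_zero_of_radial h.radial hΦ0
        · rw [gradient, fderiv_zero_of_not_differentiableAt hΦ0, map_zero]
      · have hev : Φ =ᶠ[𝓝 x] Ψ := by
          filter_upwards [isOpen_compl_singleton.mem_nhds (show x ∈ ({0}ᶜ : Set V3) from hx)] with y hy
          exact (he y hy).symm
        rw [gradient, gradient, hev.fderiv_eq]
  · refine ⟨Φ, ⟨fun x y hx hxy => ?_, h.finite_range, Or.inr ⟨h.smooth, h1, ?_⟩⟩, fun _ _ => rfl, rfl⟩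
    · have hy : y ≠ 0 := by
        rintro rfl
        rw [norm_zero, norm_eq_zero] at hxy
        exact hx hxy
      exact h.radial x y hx hy hxy
    · filter_upwards [h2] with x hx
      rw [← Bridge.inner_gradient_eq']
      exact hx

theorem IsStable.congr {Φ Ψ : V3 → ℝ} (h : IsStable Φ) (he : ∀ x, x ≠ 0 → Ψ x = Φ x) :
    Stmt.IsStable Ψ := by
  obtain ⟨B, hB, h⟩ := h
  refine ⟨B, hB, fun n x hx => (h n x hx).trans (le_of_eq ?_)⟩
  refine Finset.sum_congr rfl fun i _ => Finset.sum_congr rfl fun j hj => ?_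
  have hij : i ≠ j := (Finset.mem_Ioi.1 hj).ne
  exact (he _ (sub_ne_zero.2 (hx.ne hij))).symm

/-! ### data -/

theorem gnorm_le_wnorm {F : Type} [NormedAddCommGroup F] (γ : ℝ) (h : Phase → F) (g : Phase → ℝ)
    (hg : ∀ z, |g z| = ‖h z‖) : Stmt.gnorm Bridge.lat γ g ≤ wnorm Bridge.lat γ h := by
  refine ENNReal.tsum_le_tsum fun k => iSup_le fun x => iSup_le fun v => ?_
  have hx : ‖(x : V3) - Bridge.lat k‖ ≤ 1 := by
    have := x.2
    rw [Metric.mem_closedBall, dist_eq_norm] at this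
    exact this
  refine le_trans (le_of_eq ?_) (le_iSup_of_le (x : V3) (le_iSup_of_le hx
    (le_iSup (fun v : V3 => ENNReal.ofReal (Real.exp (γ * ‖v‖ ^ 2) * ‖h (x, v)‖)) v)))
  rw [hg]

theorem IsDatum.stmt {β : ℝ} {f₀ : Phase → ℝ} (h : IsDatum Bridge.lat β f₀) :
    Stmt.IsDatum Bridge.lat (2 * β) f₀ := by
  refine ⟨h.contDiff, ⟨h.nonneg, h.integrable, h.mass⟩, ?_, ?_⟩
  · exact lt_of_le_of_lt (gnorm_le_wnorm (2 * β) f₀ f₀ fun z => (Real.norm_eq_abs _).symm) h.bound
  · refine lt_of_le_of_lt (gnorm_le_wnorm (2 * β) _ _ fun z => ?_) h.grad_bound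
    rw [Bridge.norm_gradient_eq, abs_of_nonneg (norm_nonneg _)]

/-! ### the Boltzmann equation -/

theorem integral_lebesgueOn (P : Submodule ℝ V3) (F : V3 → ℝ) :
    ∫ ρ in Metric.ball 0 1, F ρ ∂lebesgueOn P = ∫ ρ : P in Metric.ball 0 1, F ρ := by
  have hemb : MeasurableEmbedding (Subtype.val : P → V3) :=
    MeasurableEmbedding.subtype_coe (Submodule.closed_of_finiteDimensional P).measurableSet
  have h2 : Metric.ball (0 : P) 1 = Subtype.val ⁻¹' Metric.ball (0 : V3) 1 := by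
    ext x
    simp
  rw [lebesgueOn, hemb.setIntegral_map, h2]

theorem collision_eq_stmt (Φ : V3 → ℝ) (h : V3 → ℝ) (v : V3) :
    collision (gradient Φ) h v = Stmt.collision (gradient Φ) h v := by
  rw [Bridge.collision_eq]
  unfold collision Vale.Agent.P119.collision
  refine integral_congr_ae (Eventually.of_forall fun vs => ?_)
  exact integral_lebesgueOn _ _

theorem IsKinetic.stmt {Φ : V3 → ℝ} {β : ℝ} {f₀ : Phase → ℝ} {T : ℝ} {f : ℝ → Phase → ℝ}
    (h : IsKinetic (gradient Φ) β f₀ T f) :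
    Stmt.IsClassicalSolution (gradient Φ) (2 * β) f₀ T f := by
  refine ⟨h.init, h.continuous, h.contDiff, fun t ht => ⟨⟨h.nonneg t ht, h.integrable t ht,
    h.mass t ht⟩, fun x v => ?_⟩, h.bound⟩
  rw [← Bridge.inner_gradient_eq', ← collision_eq_stmt]
  exact h.equation t ht x v

end Vale.Agent.P119.H369
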