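import Mathlib

/-!
# The Boltzmann-Grad limit for short-range potentials: the objects of the problem

The space `ℝ³` is written `E`. The observables of the gas are nonnegative and all averages are taken
in `ℝ≥0∞`, so that no convention about divergent sums or non-integrable functions is ever used.
-/

open MeasureTheory Filter Topology Set
open scoped ENNReal RealInnerProductSpace

namespace Vale.Agent.P119.H369

variable {E : Type} [NormedAddCommGroup E]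

/-- `‖h‖_γ = ∑_{k ∈ ℤ³} sup_{|x - k| ≤ 1, v ∈ ℝ³} e^{γ |v|²} |h(x, v)|`, with value in `[0, ∞]`;
`lat` is the inclusion of `ℤ³`. -/
noncomputable def wnorm {F : Type} [NormedAddCommGroup F] (lat : (Fin 3 → ℤ) → E) (γ : ℝ)
    (h : E × E → F) : ℝ≥0∞ :=
  ∑' k : Fin 3 → ℤ, ⨆ (x : E) (_ : ‖x - lat k‖ ≤ 1) (v : E),
    ENNReal.ofReal (Real.exp (γ * ‖v‖ ^ 2) * ‖h (x, v)‖)

/-- Stability: `∑_{i < j} Φ(x_i - x_j) ≥ -B n` for all `n` and all distinct `x_1, …, x_n`. -/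
def IsStable (Φ : E → ℝ) : Prop :=
  ∃ B : ℝ, 0 ≤ B ∧ ∀ (n : ℕ) (x : Fin n → E), Function.Injective x →
    -(B * n) ≤ ∑ i, ∑ j ∈ Finset.Ioi i, Φ (x i - x j)

/-- The allowed configurations of `N` particles: `|x_i - x_j| > ε` for all `i ≠ j`. -/
def Allowed (ε : ℝ) (N : ℕ) : Set (Fin N → E × E) :=
  {Z | ∀ i j, i ≠ j → ε < ‖(Z i).1 - (Z j).1‖}

/-- `z N Z t` is the configuration at time `t` of the `N` particles which started at `Z`. -/
abbrev GasFlow (E : Type) := (N : ℕ) → (Fin N → E × E) → ℝ → Fin N → E × E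

section Potentials

variable [InnerProductSpace ℝ E] [CompleteSpace E]

/-- The potentials of the problem. The value `Φ 0` plays no role. -/
structure IsPotential (Φ : E → ℝ) : Prop where
  /-- `Φ` is radial -/
  radial : ∀ x y, x ≠ 0 → y ≠ 0 → ‖x‖ = ‖y‖ → Φ x = Φ y
  /-- `Φ` is `C²` away from the origin -/
  smooth : ContDiffOn ℝ 2 Φ {0}ᶜ
  /-- the range is at most one -/
  finite_range : ∀ x, 1 ≤ ‖x‖ → Φ x = 0
  /-- `C²` extension to the origin, or divergence to `+∞` with `x·∇Φ(x) ≤ 0` near the origin -/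
  core : (∃ Ψ : E → ℝ, ContDiff ℝ 2 Ψ ∧ ∀ x, x ≠ 0 → Ψ x = Φ x) ∨
    (Tendsto Φ (𝓝[≠] 0) atTop ∧ ∀ᶠ x in 𝓝[≠] (0 : E), ⟪x, gradient Φ x⟫ ≤ 0)

end Potentials

/-! ### Newton's equations -/

section Newton

variable [InnerProductSpace ℝ E]

/-- `z` is a global solution of Newton's equations for `N` particles with `z(0) = Z`;
`G` stands for `∇Φ`. -/
def IsNewton (G : E → E) (ε : ℝ) {N : ℕ} (Z : Fin N → E × E) (z : ℝ → Fin N → E × E) : Prop :=
  z 0 = Z ∧ ∀ (t : ℝ) (i : Fin N), HasDerivAt (fun s => (z s i).1) (z t i).2 t ∧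
    HasDerivAt (fun s => (z s i).2)
      (-(ε⁻¹ • ∑ j ∈ Finset.univ.erase i, G (ε⁻¹ • ((z t i).1 - (z t j).1)))) t

/-- Newton's equations are uniquely globally solvable from all the allowed configurations. -/
def NewtonSolvable (G : E → E) : Prop :=
  ∀ ε : ℝ, 0 < ε → ∀ N, ∀ Z ∈ Allowed (E := E) ε N,
    ∃! z : ℝ → Fin N → E × E, IsNewton G ε Z z

/-- From every allowed configuration `Z`, the gas flow `z` follows Newton's equations. -/
def IsGasFlow (G : E → E) (ε : ℝ) (z : GasFlow E) : Prop :=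
  ∀ (N : ℕ), ∀ Z ∈ Allowed ε N, IsNewton G ε Z (z N Z)

end Newton

/-! ### The grand-canonical gas -/

section Gas

variable [MeasureSpace E]

/-- `∑_N μ^N / N! ∫_{allowed} g_N(Z) ∏_i f₀(z_i) dZ` with `μ = ε⁻²`, for observables `g ≥ 0`. -/
noncomputable def gasSum (f₀ : E × E → ℝ) (ε : ℝ) (g : (N : ℕ) → (Fin N → E × E) → ℝ≥0∞) :
    ℝ≥0∞ :=
  ∑' N : ℕ, ENNReal.ofReal ((ε ^ 2)⁻¹ ^ N / (N.factorial : ℝ)) *
    ∫⁻ Z in Allowed ε N, (∏ i, ENNReal.ofReal (f₀ (Z i))) * g N Z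

/-- The expectation `𝔼[g]` of an observable `g ≥ 0` under the grand-canonical initial law `ℙ`. -/
noncomputable def expectation (f₀ : E × E → ℝ) (ε : ℝ)
    (g : (N : ℕ) → (Fin N → E × E) → ℝ≥0∞) : ℝ≥0∞ :=
  gasSum f₀ ε g / gasSum f₀ ε (fun _ _ => 1)

/-- `F` is (a nonnegative version of) the rescaled factorial marginal `F^ε_s(t)`:
`∫ a F = μ^{-s} 𝔼 ∑ a(z_{i_1}(t), …, z_{i_s}(t))`, the sum over the ordered `s`-tuples of distinct
labels, for all measurable `a ≥ 0`. -/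
structure IsMarginal (f₀ : E × E → ℝ) (ε : ℝ) (z : GasFlow E) (t : ℝ) (s : ℕ)
    (F : (Fin s → E × E) → ℝ) : Prop where
  measurable : Measurable F
  nonneg : ∀ ζ, 0 ≤ F ζ
  represents : ∀ a : (Fin s → E × E) → ℝ≥0∞, Measurable a →
    ∫⁻ ζ, a ζ * ENNReal.ofReal (F ζ) = ENNReal.ofReal ((ε ^ 2) ^ s) *
      expectation f₀ ε (fun N Z => ∑ σ : Fin s ↪ Fin N, a (fun k => z N Z t (σ k)))

/-- All the marginals exist, at all times `t ≥ 0`, and have mass at most one. -/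
def HasMarginals (f₀ : E × E → ℝ) (z : ℝ → GasFlow E) : Prop :=
  ∀ ε : ℝ, 0 < ε → ∀ t : ℝ, 0 ≤ t → ∀ s : ℕ,
    ∃ F, IsMarginal f₀ ε (z ε) t s F ∧ ∫⁻ ζ, ENNReal.ofReal (F ζ) ≤ 1

/-- For every `s`, `sup_{0 ≤ t ≤ T} ‖F^ε_s(t) - f(t)^{⊗ s}‖_{L¹} → 0` as `ε ↓ 0`. -/
def MarginalsConverge (f₀ : E × E → ℝ) (z : ℝ → GasFlow E) (T : ℝ) (f : ℝ → E × E → ℝ) : Prop :=
  ∀ (s : ℕ) (F : ℝ → ℝ → (Fin s → E × E) → ℝ),
    (∀ ε ∈ Ioo (0 : ℝ) 1, ∀ t ∈ Icc 0 T, IsMarginal f₀ ε (z ε) t s (F ε t)) →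
    Tendsto (fun ε => ⨆ t ∈ Icc 0 T, ∫⁻ ζ, ‖F ε t ζ - ∏ k, f t (ζ k)‖ₑ) (𝓝[>] 0) (𝓝 0)

/-- `𝔼 |μ⁻¹ ∑_i a(z_i(t)) - ∫ a φ|²`. -/
noncomputable def deviation (f₀ : E × E → ℝ) (ε : ℝ) (z : GasFlow E) (t : ℝ) (a φ : E × E → ℝ) :
    ℝ≥0∞ :=
  expectation f₀ ε (fun N Z =>
    ENNReal.ofReal ((ε ^ 2 * ∑ i, a (z N Z t i) - ∫ ζ, a ζ * φ ζ) ^ 2))

/-- The law of large numbers for the empirical measure, in mean square, uniformly in `t ∈ [0, T]`
and in the measurable observable `a` with `|a| ≤ 1`. -/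
def LawOfLargeNumbers (f₀ : E × E → ℝ) (z : ℝ → GasFlow E) (T : ℝ) (f : ℝ → E × E → ℝ) : Prop :=
  Tendsto (fun ε => ⨆ t ∈ Icc 0 T, ⨆ (a : E × E → ℝ) (_ : Measurable a) (_ : ∀ ζ, |a ζ| ≤ 1),
    deviation f₀ ε (z ε) t a (f t)) (𝓝[>] 0) (𝓝 0)

end Gas

/-! ### Scattering and the Boltzmann equation -/

section Boltzmann

variable [InnerProductSpace ℝ E]

/-- `V'` is the outgoing velocity of the relative motion `r̈ = -2∇Φ(r)` entering along `ρ + t V`
as `t → -∞`. -/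
def Scatters (G : E → E) (V ρ V' : E) : Prop :=
  ∃ r w : ℝ → E, (∀ t, HasDerivAt r (w t) t ∧ HasDerivAt w (-((2 : ℝ) • G (r t))) t) ∧
    (∀ᶠ t in atBot, r t = ρ + t • V) ∧ ∀ᶠ t in atTop, 1 ≤ ‖r t‖ ∧ w t = V'

open Classical in
/-- The outgoing velocity `V'`, where it is defined. -/
noncomputable def outgoing (G : E → E) (V ρ : E) : E :=
  if h : ∃ V', Scatters G V ρ V' then h.choose else V

variable [FiniteDimensional ℝ E] [MeasureSpace E] [BorelSpace E]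

/-- The Lebesgue measure of the subspace `P`, as a measure on `E`. -/
noncomputable def lebesgueOn (P : Submodule ℝ E) : Measure E :=
  (volume : Measure P).map Subtype.val

/-- The collision operator `Q_Φ(h, h)(v)` for a velocity profile `h`; `ρ` runs over the unit disc of
the plane `(v - v_*)^⊥`. -/
noncomputable def collision (G : E → E) (h : E → ℝ) (v : E) : ℝ :=
  ∫ vs : E, ∫ ρ in Metric.ball 0 1,
    ‖v - vs‖ * (h ((2 : ℝ)⁻¹ • (v + vs + outgoing G (v - vs) ρ)) *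
      h ((2 : ℝ)⁻¹ • (v + vs - outgoing G (v - vs) ρ)) - h v * h vs)
    ∂lebesgueOn (ℝ ∙ (v - vs))ᗮ

variable [CompleteSpace E]

/-- The initial data: `C¹` probability densities with `‖f₀‖_{2β} + ‖∇ₓ f₀‖_{2β} < ∞`. -/
structure IsDatum (lat : (Fin 3 → ℤ) → E) (β : ℝ) (f₀ : E × E → ℝ) : Prop where
  contDiff : ContDiff ℝ 1 f₀
  nonneg : ∀ z, 0 ≤ f₀ z
  integrable : Integrable f₀
  mass : ∫ z, f₀ z = 1
  bound : wnorm lat (2 * β) f₀ < ∞
  grad_bound : wnorm lat (2 * β) (fun z : E × E => gradient (fun y => f₀ (y, z.2)) z.1) < ∞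

/-- `f` is a nonnegative classical probability-density solution on `[0, T]` with Gaussian bound:
it shows that `[0, T]` is a regular kinetic interval. (Continuous in `(t, x, v)` and, for every `v`,
continuously differentiable in `(t, x)`; every `C¹` solution is one.) -/
structure IsKinetic (G : E → E) (β : ℝ) (f₀ : E × E → ℝ) (T : ℝ) (f : ℝ → E × E → ℝ) :
    Prop where
  init : f 0 = f₀
  continuous : ContinuousOn (fun p : ℝ × E × E => f p.1 p.2) (Icc 0 T ×ˢ univ)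
  contDiff : ∀ v : E, ContDiffOn ℝ 1 (fun p : ℝ × E => f p.1 (p.2, v)) (Icc 0 T ×ˢ univ)
  nonneg : ∀ t ∈ Icc 0 T, ∀ z, 0 ≤ f t z
  integrable : ∀ t ∈ Icc 0 T, Integrable (f t)
  mass : ∀ t ∈ Icc 0 T, ∫ z, f t z = 1
  equation : ∀ t ∈ Icc 0 T, ∀ x v : E,
    derivWithin (fun s => f s (x, v)) (Icc 0 T) t + ⟪v, gradient (fun y => f t (y, v)) x⟫ =
      collision G (fun w => f t (x, w)) v
  bound : ∃ C, ∀ t ∈ Icc 0 T, ∀ x v : E, Real.exp (2 * β * ‖v‖ ^ 2) * f t (x, v) ≤ C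

/-- The Boltzmann-Grad limit: the conclusions about the gas for every potential and every datum, and
those about the limit for every stable potential and every regular kinetic interval `[0, T]`. -/
def BoltzmannGradLimit (lat : (Fin 3 → ℤ) → E) : Prop :=
  ∀ (Φ : E → ℝ) (β T : ℝ) (f₀ : E × E → ℝ), IsPotential Φ → 0 < β → 0 < T → IsDatum lat β f₀ →
    NewtonSolvable (gradient Φ) ∧
    ∀ z : ℝ → GasFlow E, (∀ ε : ℝ, 0 < ε → IsGasFlow (gradient Φ) ε (z ε)) →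
      HasMarginals f₀ z ∧
      (IsStable Φ → ∀ f, IsKinetic (gradient Φ) β f₀ T f →
        MarginalsConverge f₀ z T f ∧ LawOfLargeNumbers f₀ z T f ∧
        ∀ g, IsKinetic (gradient Φ) β f₀ T g → ∀ t ∈ Icc 0 T, g t = f t)

end Boltzmann

end Vale.Agent.P119.H369
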