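import Vale.Agent.P119.H369.Assembly

/-!
# The statement of `AMolecularChaos` contains those of `AMarginals` and `ANewtonGlobal`

(For the record; nothing depends on this file.)
-/

open MeasureTheory Filter Topology Set
open scoped ENNReal

namespace Vale.Agent.P119.H369

theorem isPotential_of_stmt {Φ : V3 → ℝ} (h : Stmt.IsPotential Φ) : IsPotential Φ := by
  obtain ⟨h1, h2, h3⟩ := h
  refine ⟨fun x y hx _ hxy => h1 x y hx hxy, ?_, h2, ?_⟩
  · rcases h3 with h3 | h3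
    · exact h3.contDiffOn
    · exact h3.1
  · rcases h3 with h3 | h3
    · exact Or.inl ⟨Φ, h3, fun _ _ => rfl⟩
    · refine Or.inr ⟨h3.2.1, ?_⟩
      filter_upwards [h3.2.2] with x hx
      rw [Bridge.inner_gradient_eq']
      exact hx

theorem wnorm_le_gnorm {F : Type} [NormedAddCommGroup F] (γ : ℝ) (h : Phase → F) (g : Phase → ℝ)
    (hg : ∀ z, |g z| = ‖h z‖) : wnorm Bridge.lat γ h ≤ Stmt.gnorm Bridge.lat γ g := by
  refine ENNReal.tsum_le_tsum fun k => iSup_le fun x => iSup_le fun hx => iSup_le fun v => ?_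
  have hx' : x ∈ Metric.closedBall (Bridge.lat k) 1 := by
    rw [Metric.mem_closedBall, dist_eq_norm]
    exact hx
  refine le_trans (le_of_eq ?_) (le_iSup_of_le (⟨x, hx'⟩ : Metric.closedBall (Bridge.lat k) 1)
    (le_iSup (fun v : V3 => ENNReal.ofReal (Real.exp (γ * ‖v‖ ^ 2) * |g (x, v)|)) v))
  rw [hg]

theorem isDatum_of_stmt {γ : ℝ} {f₀ : Phase → ℝ} (h : Stmt.IsDatum Bridge.lat γ f₀) :
    IsDatum Bridge.lat (γ / 2) f₀ := by
  obtain ⟨h1, ⟨h2, h3, h4⟩, h5, h6⟩ := h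
  have e : 2 * (γ / 2) = γ := by ring
  refine ⟨h1, h2, h3, h4, ?_, ?_⟩
  · rw [e]
    exact lt_of_le_of_lt (wnorm_le_gnorm γ f₀ f₀ fun z => (Real.norm_eq_abs _).symm) h5
  · rw [e]
    refine lt_of_le_of_lt (wnorm_le_gnorm γ _ _ fun z => ?_) h6
    rw [Bridge.norm_gradient_eq, abs_of_nonneg (norm_nonneg _)]

theorem aMarginals_of (hP : BoltzmannGradLimit (E := V3) Bridge.lat)
    (Φ : EuclideanSpace ℝ (Fin 3) → ℝ) (γ : ℝ)
    (f₀ : EuclideanSpace ℝ (Fin 3) × EuclideanSpace ℝ (Fin 3) → ℝ) (hΦ : Stmt.IsPotential Φ)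
    (hγ : 0 < γ) (hf : Stmt.IsDatum (fun k => WithLp.toLp 2 (fun i => (k i : ℝ))) γ f₀)
    (s : ℕ) (ε t : ℝ) (hε : 0 < ε) (ht : 0 ≤ t) :
    ∃ F, Stmt.IsMarginal (ε ^ 2)⁻¹ (Stmt.weight f₀ ε (ε ^ 2)⁻¹)
      (fun _ Z => Classical.epsilon (Stmt.IsNewton (gradient Φ) ε Z) t) s F ∧
      (∀ᵐ z, 0 ≤ F z) ∧ ∫ z, F z ≤ 1 := by
  have hΨ := Bridge.isPotential_of hΦ
  have hβ : 0 < γ / 2 := by positivity
  have hd : IsDatum Bridge.lat (γ / 2) f₀ := isDatum_of_stmt hf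
  obtain ⟨κ, h⟩ := goodDatum_of hβ hd
  obtain ⟨h1, h2⟩ := hP Φ (γ / 2) 1 f₀ (isPotential_of_stmt hΦ) hβ one_pos hd
  have hz : ∀ ε : ℝ, 0 < ε → IsGasFlow (gradient Φ) ε
      (fun _ Z => Classical.epsilon (IsNewton (gradient Φ) ε Z)) := fun ε hε N Z hZ =>
    Classical.epsilon_spec (h1 ε hε N Z hZ).exists
  obtain ⟨F, hF, hF1⟩ := (h2 (fun ε _ Z => Classical.epsilon (IsNewton (gradient Φ) ε Z)) hz).1
    ε hε t ht s
  have hold := hF.old hΨ h hε ht (hz ε hε)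
  refine ⟨F, Bridge.isMarginal_of hΨ hε hold, Eventually.of_forall hF.nonneg, ?_⟩
  rw [integral_eq_lintegral_of_nonneg_ae (Eventually.of_forall hF.nonneg)
    hF.measurable.aestronglyMeasurable]
  have := ENNReal.toReal_mono ENNReal.one_ne_top hF1
  rwa [ENNReal.toReal_one] at this

end Vale.Agent.P119.H369
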