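import Vale.Agent.P119.H369.Marg

/-!
# The law of large numbers from the convergence of the first two marginals
-/

open MeasureTheory Filter Topology Set
open scoped ENNReal

namespace Vale.Agent.P119.H369

/-! ### sums over embeddings -/

theorem sum_embedding_one {N : ℕ} (B : Fin N → ℝ≥0∞) :
    ∑ σ : Fin 1 ↪ Fin N, B (σ 0) = ∑ i, B i :=
  Equiv.sum_comp (Equiv.uniqueEmbeddingEquivResult (α := Fin 1) (β := Fin N)) B

theorem sum_embedding_two {N : ℕ} (B : Fin N → ℝ≥0∞) :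
    (∑ i, B i) * ∑ i, B i =
      (∑ σ : Fin 2 ↪ Fin N, B (σ 0) * B (σ 1)) + ∑ i, B i * B i := by
  classical
  have h1 : ∑ σ : Fin 2 ↪ Fin N, B (σ 0) * B (σ 1) =
      ∑ p ∈ (Finset.univ : Finset (Fin N)).offDiag, B p.1 * B p.2 := by
    refine Finset.sum_bij (fun σ _ => (σ 0, σ 1)) ?_ ?_ ?_ ?_
    · intro σ _
      rw [Finset.mem_offDiag]
      exact ⟨Finset.mem_univ _, Finset.mem_univ _, fun e => absurd (σ.injective e) (by decide)⟩
    · intro σ _ τ _ e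
      have e0 : σ 0 = τ 0 := congrArg Prod.fst e
      have e1 : σ 1 = τ 1 := congrArg Prod.snd e
      refine DFunLike.ext σ τ fun k => ?_
      rcases Fin.exists_fin_two.1 ⟨k, rfl⟩ with hk | hk
      · rw [hk]
        exact e0
      · rw [hk]
        exact e1
    · intro p hp
      rw [Finset.mem_offDiag] at hp
      exact ⟨Function.Embedding.embFinTwo hp.2.2, Finset.mem_univ _, rfl⟩
    · intro σ _
      rfl
  have h2 : ∑ i, B i * B i = ∑ p ∈ (Finset.univ : Finset (Fin N)).diag, B p.1 * B p.2 := by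
    refine Finset.sum_bij (fun i _ => (i, i)) ?_ ?_ ?_ ?_
    · intro i _
      rw [Finset.mem_diag]
      exact ⟨Finset.mem_univ _, rfl⟩
    · intro i _ j _ e
      exact congrArg Prod.fst e
    · intro p hp
      rw [Finset.mem_diag] at hp
      exact ⟨p.1, Finset.mem_univ _, Prod.ext rfl hp.2⟩
    · intro i _
      rfl
  rw [h1, h2, add_comm, ← Finset.sum_union (Finset.disjoint_diag_offDiag _),
    Finset.diag_union_offDiag, Finset.sum_mul_sum, Finset.sum_product]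

/-! ### the expectation -/

variable {f₀ : Ph → ℝ} {κ ε t : ℝ}

theorem gasSum_add (hf : Measurable f₀) (ε : ℝ) {g g' : (N : ℕ) → (Fin N → Phase) → ℝ≥0∞}
    (hg : ∀ N, Measurable (g N)) :
    gasSum f₀ ε (fun N Z => g N Z + g' N Z) = gasSum f₀ ε g + gasSum f₀ ε g' := by
  unfold gasSum
  rw [← ENNReal.tsum_add]
  refine tsum_congr fun N => ?_
  rw [← mul_add]
  congr 1
  rw [← lintegral_add_left]
  · simp only [mul_add]
  · exact (Finset.measurable_prod _ fun i _ =>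
      (hf.comp (measurable_pi_apply i)).ennreal_ofReal).mul (hg N)

theorem gasSum_const_mul (f₀ : Phase → ℝ) (ε : ℝ) {c : ℝ≥0∞} (hc : c ≠ ∞)
    (g : (N : ℕ) → (Fin N → Phase) → ℝ≥0∞) :
    gasSum f₀ ε (fun N Z => c * g N Z) = c * gasSum f₀ ε g := by
  unfold gasSum
  rw [← ENNReal.tsum_mul_left]
  refine tsum_congr fun N => ?_
  have h1 : ∀ Z : Fin N → Phase, (∏ i, ENNReal.ofReal (f₀ (Z i))) * (c * g N Z) =
      c * ((∏ i, ENNReal.ofReal (f₀ (Z i))) * g N Z) := fun Z => by ring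
  simp only [h1]
  rw [lintegral_const_mul' _ _ hc]
  ring

theorem gasSum_mono (f₀ : Phase → ℝ) (ε : ℝ) {g g' : (N : ℕ) → (Fin N → Phase) → ℝ≥0∞}
    (h : ∀ N Z, g N Z ≤ g' N Z) : gasSum f₀ ε g ≤ gasSum f₀ ε g' := by
  unfold gasSum
  refine ENNReal.tsum_le_tsum fun N => ?_
  gcongr with Z
  exact h N Z

theorem expectation_add (hf : Measurable f₀) (ε : ℝ) {g g' : (N : ℕ) → (Fin N → Phase) → ℝ≥0∞}
    (hg : ∀ N, Measurable (g N)) :
    expectation f₀ ε (fun N Z => g N Z + g' N Z) = expectation f₀ ε g + expectation f₀ ε g' := by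
  unfold expectation
  rw [gasSum_add hf ε hg, ENNReal.add_div]

theorem expectation_const_mul (f₀ : Phase → ℝ) (ε : ℝ) {c : ℝ≥0∞} (hc : c ≠ ∞)
    (g : (N : ℕ) → (Fin N → Phase) → ℝ≥0∞) :
    expectation f₀ ε (fun N Z => c * g N Z) = c * expectation f₀ ε g := by
  unfold expectation
  rw [gasSum_const_mul f₀ ε hc, mul_div_assoc]

theorem expectation_mono (f₀ : Phase → ℝ) (ε : ℝ) {g g' : (N : ℕ) → (Fin N → Phase) → ℝ≥0∞}
    (h : ∀ N Z, g N Z ≤ g' N Z) : expectation f₀ ε g ≤ expectation f₀ ε g' :=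
  ENNReal.div_le_div_right (gasSum_mono f₀ ε h) _

theorem expectation_one (h : GoodDatum f₀ κ) (hε : 0 < ε) :
    expectation f₀ ε (fun _ _ => 1) = 1 := by
  unfold expectation
  rw [gasSum_one h hε]
  exact ENNReal.div_self (ENNReal.ofReal_pos.2 (partition_pos h hε)).ne' ENNReal.ofReal_ne_top

theorem expectation_const (h : GoodDatum f₀ κ) (hε : 0 < ε) {c : ℝ≥0∞} (hc : c ≠ ∞) :
    expectation f₀ ε (fun _ _ => c) = c := by
  have h1 := expectation_const_mul f₀ ε hc (fun _ _ => 1)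
  rw [expectation_one h hε, mul_one] at h1
  simpa only [mul_one] using h1

/-! ### comparison of integrals -/

theorem lintegral_le_add {s : ℕ} {F G : (Fin s → Phase) → ℝ} (hG : Measurable G)
    {b : (Fin s → Phase) → ℝ≥0∞} (hb : Measurable b) (hb1 : ∀ ζ, b ζ ≤ 1) :
    ∫⁻ ζ, b ζ * ENNReal.ofReal (F ζ) ≤
      (∫⁻ ζ, b ζ * ENNReal.ofReal (G ζ)) + ∫⁻ ζ, ‖F ζ - G ζ‖ₑ := by
  have hm : Measurable fun ζ => b ζ * ENNReal.ofReal (G ζ) := hb.mul hG.ennreal_ofReal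
  rw [← lintegral_add_left hm]
  refine lintegral_mono fun ζ => ?_
  have h1 : ENNReal.ofReal (F ζ) ≤ ENNReal.ofReal (G ζ) + ‖F ζ - G ζ‖ₑ := by
    rw [← ofReal_norm, Real.norm_eq_abs]
    refine le_trans (ENNReal.ofReal_le_ofReal ?_) ENNReal.ofReal_add_le
    linarith [le_abs_self (F ζ - G ζ)]
  calc b ζ * ENNReal.ofReal (F ζ) ≤ b ζ * (ENNReal.ofReal (G ζ) + ‖F ζ - G ζ‖ₑ) := by gcongr
    _ = b ζ * ENNReal.ofReal (G ζ) + b ζ * ‖F ζ - G ζ‖ₑ := mul_add _ _ _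
    _ ≤ b ζ * ENNReal.ofReal (G ζ) + 1 * ‖F ζ - G ζ‖ₑ := by
        gcongr
        exact hb1 ζ
    _ = _ := by rw [one_mul]

/-- Products of integrals. -/
theorem lintegral_prod_eq {s : ℕ} {φ a : Phase → ℝ} (hφ : ∀ ζ, 0 ≤ φ ζ) (hφi : Integrable φ)
    (ham : Measurable a) (ha0 : ∀ ζ, 0 ≤ a ζ) (ha1 : ∀ ζ, a ζ ≤ 1) :
    ∫⁻ ζ : Fin s → Phase, (∏ k, ENNReal.ofReal (a (ζ k))) * ENNReal.ofReal (∏ k, φ (ζ k)) =
      ENNReal.ofReal (∫ ζ, a ζ * φ ζ) ^ s := by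
  have hi : Integrable fun ζ => a ζ * φ ζ :=
    hφi.bdd_mul (c := 1) ham.aestronglyMeasurable (Eventually.of_forall fun ζ => by
      rw [Real.norm_eq_abs, abs_of_nonneg (ha0 ζ)]
      exact ha1 ζ)
  have h0 : ∀ ζ, 0 ≤ a ζ * φ ζ := fun ζ => mul_nonneg (ha0 ζ) (hφ ζ)
  have hp : Integrable fun ζ : Fin s → Phase => ∏ k, (a (ζ k) * φ (ζ k)) :=
    Integrable.fintype_prod (fun _ => hi)
  have h1 : ∀ ζ : Fin s → Phase, (∏ k, ENNReal.ofReal (a (ζ k))) * ENNReal.ofReal (∏ k, φ (ζ k)) =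
      ENNReal.ofReal (∏ k, (a (ζ k) * φ (ζ k))) := by
    intro ζ
    rw [ENNReal.ofReal_prod_of_nonneg fun k _ => hφ _,
      ENNReal.ofReal_prod_of_nonneg fun k _ => h0 _, ← Finset.prod_mul_distrib]
    refine Finset.prod_congr rfl fun k _ => ?_
    rw [ENNReal.ofReal_mul (ha0 _)]
  simp only [h1]
  rw [← ofReal_integral_eq_lintegral_ofReal hp
    (Eventually.of_forall fun ζ => Finset.prod_nonneg fun k _ => h0 _),
    integral_fintype_prod_volume_eq_prod (fun (_ : Fin s) ζ => a ζ * φ ζ), Finset.prod_const,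
    Finset.card_univ, Fintype.card_fin, ENNReal.ofReal_pow (integral_nonneg h0)]

/-! ### the mean square deviation -/

section

variable {Ψ : E3 → ℝ} {z : (N : ℕ) → (Fin N → Phase) → ℝ → Fin N → Phase}
  {F₁ : (Fin 1 → Phase) → ℝ} {F₂ : (Fin 2 → Phase) → ℝ} {φ a : Phase → ℝ}

/-- Nonnegative observables. -/
theorem lln_nonneg (hΨ : Vale.Agent.P119.IsPotential Ψ) (h : GoodDatum f₀ κ) (hε : 0 < ε)
    (ht : 0 ≤ t) (hz : IsGasFlow (gradient Ψ) ε z) (hF₁ : IsMarginal f₀ ε z t 1 F₁)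
    (hF₂ : IsMarginal f₀ ε z t 2 F₂) (h1 : ∫⁻ ζ, ENNReal.ofReal (F₁ ζ) ≤ 1)
    (hφm : Measurable φ) (hφ : ∀ ζ, 0 ≤ φ ζ) (hφi : Integrable φ) (hφ1 : ∫ ζ, φ ζ = 1)
    (ham : Measurable a) (ha0 : ∀ ζ, 0 ≤ a ζ) (ha1 : ∀ ζ, a ζ ≤ 1) :
    expectation f₀ ε (fun N Z =>
        ENNReal.ofReal ((ε ^ 2 * ∑ i, a (z N Z t i) - ∫ ζ, a ζ * φ ζ) ^ 2)) ≤
      (∫⁻ ζ, ‖F₂ ζ - ∏ k, φ (ζ k)‖ₑ) + ENNReal.ofReal (ε ^ 2) +
        2 * ∫⁻ ζ, ‖F₁ ζ - ∏ k, φ (ζ k)‖ₑ := by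
  classical
  have hg := goodFlow_of hΨ hε ht
  choose S hSm _ hSe using hg
  have hS : ∀ (N : ℕ), ∀ Z ∈ Allowed ε N, z N Z t = S N Z := fun N Z hZ => by
    rw [gas_eq_flow hΨ hε hz hZ t, hSe N Z hZ]
  set m : ℝ := ∫ ζ, a ζ * φ ζ with hm
  have hm0 : 0 ≤ m := integral_nonneg fun ζ => mul_nonneg (ha0 ζ) (hφ ζ)
  have hm1 : m ≤ 1 := by
    rw [hm, ← hφ1]
    refine integral_mono_of_nonneg (Eventually.of_forall fun ζ => mul_nonneg (ha0 ζ) (hφ ζ)) hφi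
      (Eventually.of_forall fun ζ => ?_)
    simp only
    calc a ζ * φ ζ ≤ 1 * φ ζ := mul_le_mul_of_nonneg_right (ha1 ζ) (hφ ζ)
      _ = φ ζ := one_mul _
  set δ₁ : ℝ≥0∞ := ∫⁻ ζ, ‖F₁ ζ - ∏ k, φ (ζ k)‖ₑ with hδ₁
  set δ₂ : ℝ≥0∞ := ∫⁻ ζ, ‖F₂ ζ - ∏ k, φ (ζ k)‖ₑ with hδ₂
  set x : ℝ≥0∞ := ENNReal.ofReal (ε ^ 2) with hx
  set me : ℝ≥0∞ := ENNReal.ofReal m with hme
  have hme1 : me ≤ 1 := ENNReal.ofReal_le_one.2 hm1
  have hmet : me ≠ ∞ := ENNReal.ofReal_ne_top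
  -- the observable along the flow
  set B : (N : ℕ) → (Fin N → Phase) → Fin N → ℝ≥0∞ := fun N Z i => ENNReal.ofReal (a (S N Z i))
    with hB
  have hBm : ∀ N i, Measurable fun Z => B N Z i := fun N i =>
    (ham.comp ((measurable_pi_apply i).comp (hSm N))).ennreal_ofReal
  have hSum : ∀ N, Measurable fun Z => ∑ i, B N Z i := fun N =>
    Finset.measurable_sum _ fun i _ => hBm N i
  -- the integrals against the marginals
  set I₁ : ℝ≥0∞ := ∫⁻ ζ, ENNReal.ofReal (a (ζ 0)) * ENNReal.ofReal (F₁ ζ) with hI₁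
  set J₁ : ℝ≥0∞ := ∫⁻ ζ, (ENNReal.ofReal (a (ζ 0)) * ENNReal.ofReal (a (ζ 0))) *
    ENNReal.ofReal (F₁ ζ) with hJ₁
  set I₂ : ℝ≥0∞ := ∫⁻ ζ, (ENNReal.ofReal (a (ζ 0)) * ENNReal.ofReal (a (ζ 1))) *
    ENNReal.ofReal (F₂ ζ) with hI₂
  have ha1m : Measurable fun ζ : Fin 1 → Phase => ENNReal.ofReal (a (ζ 0)) :=
    (ham.comp (measurable_pi_apply 0)).ennreal_ofReal
  have ha20 : Measurable fun ζ : Fin 2 → Phase => ENNReal.ofReal (a (ζ 0)) :=
    (ham.comp (measurable_pi_apply 0)).ennreal_ofReal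
  have ha21 : Measurable fun ζ : Fin 2 → Phase => ENNReal.ofReal (a (ζ 1)) :=
    (ham.comp (measurable_pi_apply 1)).ennreal_ofReal
  have ha1mm : Measurable fun ζ : Fin 1 → Phase =>
      ENNReal.ofReal (a (ζ 0)) * ENNReal.ofReal (a (ζ 0)) := ha1m.mul ha1m
  have ha2m : Measurable fun ζ : Fin 2 → Phase =>
      ENNReal.ofReal (a (ζ 0)) * ENNReal.ofReal (a (ζ 1)) := ha20.mul ha21
  have hI₁' : I₁ = x * expectation f₀ ε (fun N Z => ∑ i, B N Z i) := by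
    rw [hI₁, hF₁.represents _ ha1m, pow_one]
    congr 1
    refine expectation_congr f₀ ε fun N Z hZ => ?_
    rw [hS N Z hZ]
    exact sum_embedding_one (B N Z)
  have hJ₁' : J₁ = x * expectation f₀ ε (fun N Z => ∑ i, B N Z i * B N Z i) := by
    rw [hJ₁, hF₁.represents _ ha1mm, pow_one]
    congr 1
    refine expectation_congr f₀ ε fun N Z hZ => ?_
    rw [hS N Z hZ]
    exact sum_embedding_one (fun i => B N Z i * B N Z i)
  have hI₂' : I₂ = x * x * expectation f₀ ε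
      (fun N Z => ∑ σ : Fin 2 ↪ Fin N, B N Z (σ 0) * B N Z (σ 1)) := by
    rw [hI₂, hF₂.represents _ ha2m, ENNReal.ofReal_pow (by positivity), sq]
    congr 1
    refine expectation_congr f₀ ε fun N Z hZ => ?_
    rw [hS N Z hZ]
  -- the second moment
  have hsq : x * x * expectation f₀ ε (fun N Z => (∑ i, B N Z i) * ∑ i, B N Z i) =
      I₂ + x * J₁ := by
    have e1 : (fun (N : ℕ) (Z : Fin N → Phase) => (∑ i, B N Z i) * ∑ i, B N Z i) =
        fun N Z => (∑ σ : Fin 2 ↪ Fin N, B N Z (σ 0) * B N Z (σ 1)) +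
          ∑ i, B N Z i * B N Z i := by
      funext N Z
      exact sum_embedding_two (B N Z)
    have e2 : ∀ N, Measurable fun Z : Fin N → Phase =>
        ∑ σ : Fin 2 ↪ Fin N, B N Z (σ 0) * B N Z (σ 1) := fun N =>
      Finset.measurable_sum _ fun σ _ => (hBm N _).mul (hBm N _)
    rw [e1, expectation_add h.meas ε e2, mul_add, ← hI₂', hJ₁']
    congr 1
    ring
  -- the deviation
  set D : (N : ℕ) → (Fin N → Phase) → ℝ≥0∞ := fun N Z =>
    ENNReal.ofReal ((ε ^ 2 * ∑ i, a (S N Z i) - m) ^ 2) with hD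
  have hDm : ∀ N, Measurable (D N) := by
    intro N
    have h2 : Measurable fun Z : Fin N → Phase => ∑ i, a (S N Z i) :=
      Finset.measurable_sum _ fun i _ => ham.comp ((measurable_pi_apply i).comp (hSm N))
    exact (((h2.const_mul _).sub_const _).pow_const 2).ennreal_ofReal
  have hgoal : expectation f₀ ε (fun N Z =>
      ENNReal.ofReal ((ε ^ 2 * ∑ i, a (z N Z t i) - m) ^ 2)) = expectation f₀ ε D :=
    expectation_congr f₀ ε fun N Z hZ => by rw [hS N Z hZ]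
  have hkey : ∀ (N : ℕ) (Z : Fin N → Phase), D N Z + 2 * me * x * (∑ i, B N Z i) =
      x * x * ((∑ i, B N Z i) * ∑ i, B N Z i) + me * me := by
    intro N Z
    have hs0 : 0 ≤ ∑ i, a (S N Z i) := Finset.sum_nonneg fun i _ => ha0 _
    have e1 : ∑ i, B N Z i = ENNReal.ofReal (∑ i, a (S N Z i)) := by
      rw [ENNReal.ofReal_sum_of_nonneg fun i _ => ha0 _]
    have e2 : (2 : ℝ≥0∞) = ENNReal.ofReal 2 := by
      rw [ENNReal.ofReal_ofNat]
    have hε2 : 0 ≤ ε ^ 2 := by positivity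
    rw [e1, hx, hme, e2]
    simp only [hD]
    rw [← ENNReal.ofReal_mul (by norm_num), ← ENNReal.ofReal_mul (by positivity),
      ← ENNReal.ofReal_mul (by positivity), ← ENNReal.ofReal_mul hε2,
      ← ENNReal.ofReal_mul hs0, ← ENNReal.ofReal_mul (by positivity), ← ENNReal.ofReal_mul hm0,
      ← ENNReal.ofReal_add (sq_nonneg _) (by positivity),
      ← ENNReal.ofReal_add (by positivity) (by positivity)]
    congr 1
    ring
  have hE : expectation f₀ ε D + 2 * me * I₁ = I₂ + x * J₁ + me * me := by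
    have e1 : (fun (N : ℕ) (Z : Fin N → Phase) => D N Z + 2 * me * x * (∑ i, B N Z i)) =
        fun N Z => x * x * ((∑ i, B N Z i) * ∑ i, B N Z i) + me * me := by
      funext N Z
      exact hkey N Z
    have hxt : x ≠ ∞ := ENNReal.ofReal_ne_top
    have e2 : expectation f₀ ε (fun N Z => D N Z + 2 * me * x * (∑ i, B N Z i)) =
        expectation f₀ ε D + 2 * me * I₁ := by
      rw [expectation_add h.meas ε hDm, expectation_const_mul f₀ ε
        (ENNReal.mul_ne_top (ENNReal.mul_ne_top (by norm_num) hmet) hxt), hI₁']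
      congr 1
      ring
    have e3 : expectation f₀ ε (fun N Z => x * x * ((∑ i, B N Z i) * ∑ i, B N Z i) + me * me) =
        I₂ + x * J₁ + me * me := by
      have e4 : ∀ N, Measurable fun Z : Fin N → Phase =>
          x * x * ((∑ i, B N Z i) * ∑ i, B N Z i) := fun N =>
        ((hSum N).mul (hSum N)).const_mul _
      rw [expectation_add h.meas ε e4, expectation_const_mul f₀ ε (ENNReal.mul_ne_top hxt hxt), hsq,
        expectation_const h hε (ENNReal.mul_ne_top hmet hmet)]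
    rw [← e2, e1, e3]
  -- comparison with the limit
  have hφp : ∀ s : ℕ, Measurable fun ζ : Fin s → Phase => ∏ k, φ (ζ k) := fun s =>
    Finset.measurable_prod _ fun k _ => hφm.comp (measurable_pi_apply k)
  have hale : ∀ ζ, ENNReal.ofReal (a ζ) ≤ 1 := fun ζ => ENNReal.ofReal_le_one.2 (ha1 ζ)
  have hc1 : me ≤ I₁ + δ₁ := by
    have e1 := lintegral_prod_eq (s := 1) hφ hφi ham ha0 ha1
    rw [pow_one] at e1
    rw [hme, hm, ← e1]
    have e2 : ∀ ζ : Fin 1 → Phase, ∏ k, ENNReal.ofReal (a (ζ k)) = ENNReal.ofReal (a (ζ 0)) :=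
      fun ζ => by rw [Fin.prod_univ_one]
    simp only [e2]
    refine (lintegral_le_add (G := F₁) hF₁.measurable ha1m fun ζ => hale _).trans ?_
    refine add_le_add le_rfl (le_of_eq ?_)
    refine lintegral_congr fun ζ => ?_
    rw [← enorm_neg, neg_sub]
  have hc2 : I₂ ≤ me * me + δ₂ := by
    have e1 := lintegral_prod_eq (s := 2) hφ hφi ham ha0 ha1
    rw [sq] at e1
    rw [hme, hm, ← e1]
    have e2 : ∀ ζ : Fin 2 → Phase, ∏ k, ENNReal.ofReal (a (ζ k)) =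
        ENNReal.ofReal (a (ζ 0)) * ENNReal.ofReal (a (ζ 1)) :=
      fun ζ => by rw [Fin.prod_univ_two]
    simp only [e2]
    exact lintegral_le_add (hφp 2) (ha20.mul ha21) fun ζ => mul_le_one' (hale _) (hale _)
  have hc3 : J₁ ≤ 1 := by
    refine le_trans (lintegral_mono fun ζ => ?_) h1
    exact mul_le_of_le_one_left' (mul_le_one' (hale _) (hale _))
  rw [hgoal]
  have hfin : expectation f₀ ε D + 2 * (me * me) ≤ (δ₂ + x + 2 * δ₁) + 2 * (me * me) := by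
    calc expectation f₀ ε D + 2 * (me * me)
        ≤ expectation f₀ ε D + 2 * (me * (I₁ + δ₁)) := by gcongr
      _ = expectation f₀ ε D + 2 * me * I₁ + 2 * me * δ₁ := by ring
      _ ≤ expectation f₀ ε D + 2 * me * I₁ + 2 * 1 * δ₁ := by gcongr
      _ = I₂ + x * J₁ + me * me + 2 * 1 * δ₁ := by rw [hE]
      _ ≤ (me * me + δ₂) + x * 1 + me * me + 2 * 1 * δ₁ := by gcongr
      _ = (δ₂ + x + 2 * δ₁) + 2 * (me * me) := by ring
  exact ENNReal.le_of_add_le_add_right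
    (ENNReal.mul_ne_top (by norm_num) (ENNReal.mul_ne_top hmet hmet)) hfin

theorem ofReal_sq_sub_le (p q : ℝ) :
    ENNReal.ofReal ((p - q) ^ 2) ≤ 2 * ENNReal.ofReal (p ^ 2) + 2 * ENNReal.ofReal (q ^ 2) := by
  have e2 : (2 : ℝ≥0∞) = ENNReal.ofReal 2 := by
    rw [ENNReal.ofReal_ofNat]
  rw [e2, ← ENNReal.ofReal_mul (by norm_num), ← ENNReal.ofReal_mul (by norm_num),
    ← ENNReal.ofReal_add (by positivity) (by positivity)]
  refine ENNReal.ofReal_le_ofReal ?_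
  nlinarith [sq_nonneg (p + q)]

/-- Bounded observables. -/
theorem lln_bounded (hΨ : Vale.Agent.P119.IsPotential Ψ) (h : GoodDatum f₀ κ) (hε : 0 < ε)
    (ht : 0 ≤ t) (hz : IsGasFlow (gradient Ψ) ε z) (hF₁ : IsMarginal f₀ ε z t 1 F₁)
    (hF₂ : IsMarginal f₀ ε z t 2 F₂) (h1 : ∫⁻ ζ, ENNReal.ofReal (F₁ ζ) ≤ 1)
    (hφm : Measurable φ) (hφ : ∀ ζ, 0 ≤ φ ζ) (hφi : Integrable φ) (hφ1 : ∫ ζ, φ ζ = 1)
    (ham : Measurable a) (ha : ∀ ζ, |a ζ| ≤ 1) :
    expectation f₀ ε (fun N Z =>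
        ENNReal.ofReal ((ε ^ 2 * ∑ i, a (z N Z t i) - ∫ ζ, a ζ * φ ζ) ^ 2)) ≤
      4 * ((∫⁻ ζ, ‖F₂ ζ - ∏ k, φ (ζ k)‖ₑ) + ENNReal.ofReal (ε ^ 2) +
        2 * ∫⁻ ζ, ‖F₁ ζ - ∏ k, φ (ζ k)‖ₑ) := by
  classical
  have hg := goodFlow_of hΨ hε ht
  choose S hSm _ hSe using hg
  have hS : ∀ (N : ℕ), ∀ Z ∈ Allowed ε N, z N Z t = S N Z := fun N Z hZ => by
    rw [gas_eq_flow hΨ hε hz hZ t, hSe N Z hZ]
  set b : Phase → ℝ := fun ζ => max (a ζ) 0 with hb
  set c : Phase → ℝ := fun ζ => max (-a ζ) 0 with hc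
  have hbm : Measurable b := ham.max measurable_const
  have hcm : Measurable c := ham.neg.max measurable_const
  have hb0 : ∀ ζ, 0 ≤ b ζ := fun ζ => le_max_right _ _
  have hc0 : ∀ ζ, 0 ≤ c ζ := fun ζ => le_max_right _ _
  have hb1 : ∀ ζ, b ζ ≤ 1 := fun ζ => max_le ((le_abs_self _).trans (ha ζ)) zero_le_one
  have hc1 : ∀ ζ, c ζ ≤ 1 := fun ζ => max_le ((neg_le_abs _).trans (ha ζ)) zero_le_one
  have hbc : ∀ ζ, a ζ = b ζ - c ζ := by
    intro ζ
    simp only [hb, hc]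
    rcases le_total 0 (a ζ) with h0 | h0
    · rw [max_eq_left h0, max_eq_right (neg_nonpos.2 h0), sub_zero]
    · rw [max_eq_right h0, max_eq_left (neg_nonneg.2 h0)]
      ring
  have hint : ∀ {d : Phase → ℝ}, Measurable d → (∀ ζ, 0 ≤ d ζ) → (∀ ζ, d ζ ≤ 1) →
      Integrable fun ζ => d ζ * φ ζ := fun hd h0 h1 =>
    hφi.bdd_mul (c := 1) hd.aestronglyMeasurable (Eventually.of_forall fun ζ => by
      rw [Real.norm_eq_abs, abs_of_nonneg (h0 ζ)]
      exact h1 ζ)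
  have hm : ∫ ζ, a ζ * φ ζ = (∫ ζ, b ζ * φ ζ) - ∫ ζ, c ζ * φ ζ := by
    rw [← integral_sub (hint hbm hb0 hb1) (hint hcm hc0 hc1)]
    refine integral_congr_ae (Eventually.of_forall fun ζ => ?_)
    simp only [hbc ζ]
    ring
  set X : (d : Phase → ℝ) → (N : ℕ) → (Fin N → Phase) → ℝ≥0∞ := fun d N Z =>
    ENNReal.ofReal ((ε ^ 2 * ∑ i, d (z N Z t i) - ∫ ζ, d ζ * φ ζ) ^ 2) with hX
  set Y : (d : Phase → ℝ) → (N : ℕ) → (Fin N → Phase) → ℝ≥0∞ := fun d N Z =>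
    ENNReal.ofReal ((ε ^ 2 * ∑ i, d (S N Z i) - ∫ ζ, d ζ * φ ζ) ^ 2) with hY
  have hXY : ∀ d, expectation f₀ ε (X d) = expectation f₀ ε (Y d) := fun d =>
    expectation_congr f₀ ε fun N Z hZ => by simp only [hX, hY, hS N Z hZ]
  have hYm : ∀ {d : Phase → ℝ}, Measurable d → ∀ N, Measurable (Y d N) := by
    intro d hd N
    have h2 : Measurable fun Z : Fin N → Phase => ∑ i, d (S N Z i) :=
      Finset.measurable_sum _ fun i _ => hd.comp ((measurable_pi_apply i).comp (hSm N))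
    exact (((h2.const_mul _).sub_const _).pow_const 2).ennreal_ofReal
  have hle : ∀ N Z, Y a N Z ≤ 2 * Y b N Z + 2 * Y c N Z := by
    intro N Z
    simp only [hY]
    have e3 : ∑ i, a (S N Z i) = (∑ i, b (S N Z i)) - ∑ i, c (S N Z i) := by
      rw [← Finset.sum_sub_distrib]
      exact Finset.sum_congr rfl fun i _ => hbc _
    have e4 : ε ^ 2 * ∑ i, a (S N Z i) - ∫ ζ, a ζ * φ ζ =
        (ε ^ 2 * ∑ i, b (S N Z i) - ∫ ζ, b ζ * φ ζ) -
          (ε ^ 2 * ∑ i, c (S N Z i) - ∫ ζ, c ζ * φ ζ) := by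
      rw [hm, e3]
      ring
    rw [e4]
    exact ofReal_sq_sub_le _ _
  set R : ℝ≥0∞ := (∫⁻ ζ, ‖F₂ ζ - ∏ k, φ (ζ k)‖ₑ) + ENNReal.ofReal (ε ^ 2) +
        2 * ∫⁻ ζ, ‖F₁ ζ - ∏ k, φ (ζ k)‖ₑ with hR
  have hRb : expectation f₀ ε (Y b) ≤ R := by
    rw [← hXY]
    exact lln_nonneg hΨ h hε ht hz hF₁ hF₂ h1 hφm hφ hφi hφ1 hbm hb0 hb1
  have hRc : expectation f₀ ε (Y c) ≤ R := by
    rw [← hXY]
    exact lln_nonneg hΨ h hε ht hz hF₁ hF₂ h1 hφm hφ hφi hφ1 hcm hc0 hc1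
  calc expectation f₀ ε (X a) = expectation f₀ ε (Y a) := hXY a
    _ ≤ expectation f₀ ε (fun N Z => 2 * Y b N Z + 2 * Y c N Z) := expectation_mono f₀ ε hle
    _ = 2 * expectation f₀ ε (Y b) + 2 * expectation f₀ ε (Y c) := by
        rw [expectation_add h.meas ε (fun N => (hYm hbm N).const_mul _),
          expectation_const_mul f₀ ε (by norm_num), expectation_const_mul f₀ ε (by norm_num)]
    _ ≤ 2 * R + 2 * R := by gcongr
    _ = 4 * R := by ring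

end

end Vale.Agent.P119.H369
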