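import Vale.Agent.P119.H369.Meas

/-!
# Existence, mass and uniqueness of the marginals
-/

open MeasureTheory Filter Topology Set
open scoped ENNReal

namespace Vale.Agent.P119.H369

/-- Newton's equations are uniquely globally solvable from the allowed configurations. -/
theorem newton_unique {Ψ : E3 → ℝ} (hΨ : Vale.Agent.P119.IsPotential Ψ) {ε : ℝ} (hε : 0 < ε)
    {N : ℕ} {Z : Fin N → Phase} (hZ : Z ∈ Allowed ε N) :
    ∃! z : ℝ → Fin N → Phase, IsNewton (gradient Ψ) ε Z z :=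
  Bridge.existsUnique hΨ hε hZ

theorem gas_eq_flow {Ψ : E3 → ℝ} (hΨ : Vale.Agent.P119.IsPotential Ψ) {ε : ℝ} (hε : 0 < ε)
    {z : (N : ℕ) → (Fin N → Phase) → ℝ → Fin N → Phase} (hz : IsGasFlow (gradient Ψ) ε z)
    {N : ℕ} {Z : Fin N → Phase} (hZ : Z ∈ Allowed ε N) (t : ℝ) : z N Z t = flow Ψ ε t Z := by
  have h1 : Stmt.IsNewton (gradient Ψ) ε Z (z N Z) := hz N Z hZ
  rw [← Bridge.epsilon_eq_flow hΨ hε t hZ]
  have h3 : Classical.epsilon (Stmt.IsNewton (gradient Ψ) ε Z) = z N Z :=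
    (Bridge.existsUnique hΨ hε hZ).unique (Classical.epsilon_spec ⟨_, h1⟩) h1
  rw [h3]

theorem gasSum_congr (f₀ : Phase → ℝ) (ε : ℝ) {g g' : (N : ℕ) → (Fin N → Phase) → ℝ≥0∞}
    (h : ∀ N, ∀ Z ∈ Allowed ε N, g N Z = g' N Z) : gasSum f₀ ε g = gasSum f₀ ε g' := by
  refine tsum_congr fun N => ?_
  congr 1
  refine setLIntegral_congr_fun (measurableSet_excl ε N) fun Z hZ => ?_
  rw [h N Z hZ]

theorem expectation_congr (f₀ : Phase → ℝ) (ε : ℝ) {g g' : (N : ℕ) → (Fin N → Phase) → ℝ≥0∞}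
    (h : ∀ N, ∀ Z ∈ Allowed ε N, g N Z = g' N Z) : expectation f₀ ε g = expectation f₀ ε g' := by
  rw [expectation, expectation, gasSum_congr f₀ ε h]

variable {Ψ : E3 → ℝ} {f₀ : Ph → ℝ} {κ ε t : ℝ}
  {z : (N : ℕ) → (Fin N → Phase) → ℝ → Fin N → Phase}

/-- The measure with density the rescaled factorial marginal. -/
theorem exists_moment (hΨ : Vale.Agent.P119.IsPotential Ψ) (h : GoodDatum f₀ κ) (hε : 0 < ε)
    (ht : 0 ≤ t) (hz : IsGasFlow (gradient Ψ) ε z) (s : ℕ) :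
    ∃ M : Measure (Fin s → Ph), IsFiniteMeasure M ∧ M ≪ volume ∧ M univ ≤ 1 ∧
      (∀ a : (Fin s → Ph) → ℝ≥0∞, Measurable a → ∫⁻ ζ, a ζ ∂M = ENNReal.ofReal ((ε ^ 2) ^ s) *
        expectation f₀ ε (fun N Z => ∑ σ : Fin s ↪ Fin N, a (fun k => z N Z t (σ k)))) ∧
      ∀ a : (Fin s → Ph) → ℝ, Measurable a → (∃ C, ∀ z, |a z| ≤ C) →
        ∫ ζ, a ζ ∂M = (mu ε ^ s)⁻¹ *
          expect f₀ ε (fun N Z => ∑ σ : Fin s ↪ Fin N, a (fun k => flow Ψ ε t Z (σ k))) := by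
  obtain ⟨M, hM, hac, h1, h2⟩ := exists_measure h hε (goodFlow_of hΨ hε ht) s
  refine ⟨M, hM, hac, ?_, fun a ha => ?_, h2⟩
  · have h3 := h2 (fun _ => 1) measurable_const ⟨1, fun z => by simp⟩
    have h4 := GC.expect_descFactorial_le h hε s
    rw [← h3] at h4
    rw [integral_const, smul_eq_mul, mul_one, measureReal_def] at h4
    rw [← ENNReal.ofReal_toReal (measure_ne_top M univ)]
    exact ENNReal.ofReal_le_one.2 h4
  · rw [h1 a ha]
    congr 1
    refine expectation_congr f₀ ε fun N Z hZ => ?_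
    rw [gas_eq_flow hΨ hε hz hZ t]

section

variable {s : ℕ} {M : Measure (Fin s → Ph)}

theorem isMarginal_rnDeriv [IsFiniteMeasure M] (hac : M ≪ volume)
    (hM : ∀ a : (Fin s → Ph) → ℝ≥0∞, Measurable a → ∫⁻ ζ, a ζ ∂M = ENNReal.ofReal ((ε ^ 2) ^ s) *
        expectation f₀ ε (fun N Z => ∑ σ : Fin s ↪ Fin N, a (fun k => z N Z t (σ k)))) :
    IsMarginal f₀ ε z t s (fun ζ => (M.rnDeriv volume ζ).toReal) := by
  refine ⟨(Measure.measurable_rnDeriv M volume).ennreal_toReal,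
    fun _ => ENNReal.toReal_nonneg, fun a ha => ?_⟩
  rw [← hM a ha, ← lintegral_rnDeriv_mul hac ha.aemeasurable]
  refine lintegral_congr_ae ?_
  filter_upwards [Measure.rnDeriv_lt_top M volume] with ζ hζ
  rw [ENNReal.ofReal_toReal hζ.ne, mul_comm]

theorem IsMarginal.withDensity_eq {F : (Fin s → Ph) → ℝ} (hF : IsMarginal f₀ ε z t s F)
    (hM : ∀ a : (Fin s → Ph) → ℝ≥0∞, Measurable a → ∫⁻ ζ, a ζ ∂M = ENNReal.ofReal ((ε ^ 2) ^ s) *
        expectation f₀ ε (fun N Z => ∑ σ : Fin s ↪ Fin N, a (fun k => z N Z t (σ k)))) :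
    (volume : Measure (Fin s → Ph)).withDensity (fun ζ => ENNReal.ofReal (F ζ)) = M := by
  refine Measure.ext fun A hA => ?_
  have ha : Measurable (A.indicator (fun _ => (1 : ℝ≥0∞))) := measurable_const.indicator hA
  have h1 := hF.represents _ ha
  rw [← hM _ ha, lintegral_indicator hA, setLIntegral_one] at h1
  rw [withDensity_apply _ hA, ← h1, ← lintegral_indicator hA]
  refine lintegral_congr fun ζ => ?_
  by_cases hζ : ζ ∈ A
  · rw [indicator_of_mem hζ, indicator_of_mem hζ, one_mul]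
  · rw [indicator_of_notMem hζ, indicator_of_notMem hζ, zero_mul]

/-- A marginal in the present sense is one in the sense of the earlier files. -/
theorem IsMarginal.old {F : (Fin s → Ph) → ℝ} (hF : IsMarginal f₀ ε z t s F)
    (hΨ : Vale.Agent.P119.IsPotential Ψ) (h : GoodDatum f₀ κ) (hε : 0 < ε)
    (ht : 0 ≤ t) (hz : IsGasFlow (gradient Ψ) ε z) :
    Vale.Agent.P119.IsMarginal Ψ f₀ ε t s F := by
  obtain ⟨M, hMf, hac, -, h1, h2⟩ := exists_moment hΨ h hε ht hz s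
  have h3 := hF.withDensity_eq h1
  have hm : Measurable fun ζ => ENNReal.ofReal (F ζ) := hF.measurable.ennreal_ofReal
  refine ⟨⟨hF.measurable.aestronglyMeasurable, ?_⟩, fun a ham ha => ?_⟩
  · rw [hasFiniteIntegral_iff_ofReal (Eventually.of_forall hF.nonneg)]
    have h4 : ∫⁻ ζ, ENNReal.ofReal (F ζ) = M univ := by
      rw [← h3, withDensity_apply _ MeasurableSet.univ, setLIntegral_univ]
    rw [h4]
    exact measure_lt_top M univ
  · rw [← h2 a ham ha, ← h3, integral_withDensity_eq_integral_toReal_smul hm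
      (Eventually.of_forall fun ζ => ENNReal.ofReal_lt_top)]
    refine integral_congr_ae (Eventually.of_forall fun ζ => ?_)
    simp only [smul_eq_mul]
    rw [ENNReal.toReal_ofReal (hF.nonneg ζ), mul_comm]

end

/-- The marginals exist; their masses are at most one. -/
theorem exists_isMarginal (hΨ : Vale.Agent.P119.IsPotential Ψ) (h : GoodDatum f₀ κ) (hε : 0 < ε)
    (ht : 0 ≤ t) (hz : IsGasFlow (gradient Ψ) ε z) (s : ℕ) :
    ∃ F, IsMarginal f₀ ε z t s F ∧ ∫⁻ ζ, ENNReal.ofReal (F ζ) ≤ 1 := by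
  obtain ⟨M, hMf, hac, h0, h1, -⟩ := exists_moment hΨ h hε ht hz s
  have hF := isMarginal_rnDeriv hac h1
  refine ⟨_, hF, ?_⟩
  have h3 := hF.withDensity_eq h1
  have h4 : ∫⁻ ζ, ENNReal.ofReal ((M.rnDeriv volume ζ).toReal) = M univ := by
    conv_rhs => rw [← h3]
    rw [withDensity_apply _ MeasurableSet.univ, setLIntegral_univ]
  rw [h4]
  exact h0

/-- Two functions representing the same functional are equal almost everywhere. -/
theorem represents_unique {s : ℕ} {F G : (Fin s → Ph) → ℝ} {L : ((Fin s → Ph) → ℝ) → ℝ}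
    (hF : Stmt.Represents F L) (hG : Stmt.Represents G L) : F =ᵐ[volume] G := by
  have h1 : ∫⁻ ζ, ‖F ζ - G ζ‖ₑ ≤ ENNReal.ofReal 0 :=
    lintegral_enorm_sub_le hF.1 hG.1 fun a ham ha => by
      rw [hF.2 a ham ⟨1, ha⟩, hG.2 a ham ⟨1, ha⟩, sub_self, abs_zero]
  rw [ENNReal.ofReal_zero, nonpos_iff_eq_zero] at h1
  have h2 : AEMeasurable (fun ζ => ‖F ζ - G ζ‖ₑ) volume :=
    (hF.1.aestronglyMeasurable.sub hG.1.aestronglyMeasurable).enorm
  have h3 := (lintegral_eq_zero_iff' h2).1 h1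
  filter_upwards [h3] with ζ hζ
  have : F ζ - G ζ = 0 := enorm_eq_zero.1 hζ
  linarith

/-- The marginals converge if they do in the sense of the earlier files. -/
theorem tendsto_of_kineticLimit (hΨ : Vale.Agent.P119.IsPotential Ψ) (h : GoodDatum f₀ κ)
    {z : ℝ → (N : ℕ) → (Fin N → Phase) → ℝ → Fin N → Phase}
    (hz : ∀ ε : ℝ, 0 < ε → IsGasFlow (gradient Ψ) ε (z ε)) {T : ℝ} {f : ℝ → Phase → ℝ} {s : ℕ}
    (hK : Stmt.KineticLimit (gradient Ψ) f₀ T f s) (F : ℝ → ℝ → (Fin s → Phase) → ℝ)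
    (hF : ∀ ε ∈ Ioo (0 : ℝ) 1, ∀ t ∈ Icc 0 T, IsMarginal f₀ ε (z ε) t s (F ε t)) :
    Tendsto (fun ε => ⨆ t ∈ Icc 0 T, ∫⁻ ζ, ‖F ε t ζ - ∏ k, f t (ζ k)‖ₑ) (𝓝[>] 0) (𝓝 0) := by
  obtain ⟨F', hF', hlim⟩ := hK
  refine hlim.congr' ?_
  filter_upwards [Ioo_mem_nhdsGT (show (0 : ℝ) < 1 by norm_num)] with ε hε
  refine iSup_congr fun t => iSup_congr fun ht => ?_
  have h1 : F' ε t =ᵐ[volume] F ε t :=
    represents_unique (hF' ε hε t ht) (Bridge.isMarginal_of hΨ hε.1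
      ((hF ε hε t ht).old hΨ h hε.1 ht.1 (hz ε hε.1)))
  refine lintegral_congr_ae ?_
  filter_upwards [h1] with ζ hζ
  rw [hζ]

end Vale.Agent.P119.H369
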