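import Vale.Agent.P119.H369.Bridge
import Vale.Agent.P119.GC.Lower

/-!
# The marginals as densities of measures
-/

open MeasureTheory Filter Topology Set
open scoped ENNReal

namespace Vale.Agent.P119.H369

variable {Φ : E3 → ℝ} {f₀ : Ph → ℝ} {κ ε t : ℝ} {s : ℕ}

theorem ofReal_wt (hf : ∀ z, 0 ≤ f₀ z) (ε : ℝ) {N : ℕ} (Z : Fin N → Ph) :
    ENNReal.ofReal (wt f₀ ε Z) =
      (excl ε N).indicator (fun Z => ∏ i, ENNReal.ofReal (f₀ (Z i))) Z := by
  by_cases hZ : Z ∈ excl ε N
  · rw [wt, indicator_of_mem hZ, indicator_of_mem hZ,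
      ENNReal.ofReal_prod_of_nonneg fun i _ => hf _]
  · rw [wt, indicator_of_notMem hZ, indicator_of_notMem hZ, ENNReal.ofReal_zero]

theorem lintegral_allowed (hf : ∀ z, 0 ≤ f₀ z) (ε : ℝ) {N : ℕ} (g : (Fin N → Ph) → ℝ≥0∞) :
    ∫⁻ Z in Allowed ε N, (∏ i, ENNReal.ofReal (f₀ (Z i))) * g Z =
      ∫⁻ Z : Fin N → Ph, ENNReal.ofReal (wt f₀ ε Z) * g Z := by
  have hA : Allowed ε N = excl ε N := rfl
  rw [hA, ← lintegral_indicator (measurableSet_excl ε N)]
  refine lintegral_congr fun Z => ?_
  rw [ofReal_wt hf]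
  by_cases hZ : Z ∈ excl ε N
  · rw [indicator_of_mem hZ, indicator_of_mem hZ]
  · rw [indicator_of_notMem hZ, indicator_of_notMem hZ, zero_mul]

theorem gasSum_eq (hf : ∀ z, 0 ≤ f₀ z) (ε : ℝ) (g : (N : ℕ) → (Fin N → Ph) → ℝ≥0∞) :
    gasSum f₀ ε g = ∑' N : ℕ, ENNReal.ofReal (aw (mu ε) N) *
      ∫⁻ Z : Fin N → Ph, ENNReal.ofReal (wt f₀ ε Z) * g N Z := by
  refine tsum_congr fun N => ?_
  rw [lintegral_allowed hf ε (g N)]
  rfl

theorem gasSum_one (h : GoodDatum f₀ κ) (hε : 0 < ε) :
    gasSum f₀ ε (fun _ _ => 1) = ENNReal.ofReal (partitionFn f₀ ε) := by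
  have hμ : 0 < mu ε := by
    unfold mu
    positivity
  have hcs := h.canSeq hε
  have hsumm : Summable (fun N => aw (mu ε) N * ∫ Z : Fin N → Ph, wt f₀ ε Z) := by
    have := summable_aw_desc (μ := mu ε) 0 _ 1 hμ.le hcs.abs_le
    refine this.congr fun N => ?_
    simp
  rw [gasSum_eq h.nonneg, partitionFn_eq, ENNReal.ofReal_tsum_of_nonneg _ hsumm]
  · refine tsum_congr fun N => ?_
    rw [ENNReal.ofReal_mul (aw_nonneg hμ.le N)]
    congr 1
    simp only [mul_one]
    rw [← ofReal_integral_eq_lintegral_ofReal (integrable_wt h ε N)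
      (Eventually.of_forall fun Z => wt_nonneg h.nonneg ε Z)]
  · intro N
    exact mul_nonneg (aw_nonneg hμ.le N) (hcs.nonneg N)

theorem partition_pos (h : GoodDatum f₀ κ) (hε : 0 < ε) : 0 < partitionFn f₀ ε := by
  rw [partitionFn_eq]
  exact (h.canSeq hε).partition_pos (GC.mu_pos hε)

/-- The rescaled factorial moment measure. -/
theorem exists_measure (h : GoodDatum f₀ κ) (hε : 0 < ε) (hS : GoodFlow Φ ε t) (s : ℕ) :
    ∃ M : Measure (Fin s → Ph), IsFiniteMeasure M ∧ M ≪ volume ∧
      (∀ a : (Fin s → Ph) → ℝ≥0∞, Measurable a → ∫⁻ ζ, a ζ ∂M = ENNReal.ofReal ((ε ^ 2) ^ s) *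
        expectation f₀ ε (fun N Z => ∑ σ : Fin s ↪ Fin N, a (fun k => flow Φ ε t Z (σ k)))) ∧
      ∀ a : (Fin s → Ph) → ℝ, Measurable a → (∃ C, ∀ z, |a z| ≤ C) →
        ∫ ζ, a ζ ∂M = (mu ε ^ s)⁻¹ *
          expect f₀ ε (fun N Z => ∑ σ : Fin s ↪ Fin N, a (fun k => flow Φ ε t Z (σ k))) := by
  classical
  choose S hSm hSac hSe using hS
  have hμ : 0 < mu ε := by
    unfold mu
    positivity
  set z : ℕ → ℝ := fun N => ∫ Z : Fin N → Ph, wt f₀ ε Z with hz
  have hcs : CanSeq z (κ * ε ^ 3) := h.canSeq hε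
  have hΞ : 0 < partitionFn f₀ ε := partition_pos h hε
  set c : ℝ := (mu ε ^ s)⁻¹ * (partitionFn f₀ ε)⁻¹ with hc
  have hc0 : 0 < c := by positivity
  let P : (N : ℕ) → Measure (Fin N → Ph) := fun N =>
    (volume : Measure (Fin N → Ph)).withDensity (fun Z => ENNReal.ofReal (wt f₀ ε Z))
  have hProj : ∀ (N : ℕ) (σ : Fin s ↪ Fin N), Measurable
      (fun (Z : Fin N → Ph) (k : Fin s) => S N Z (σ k)) := by
    intro N σ
    rw [measurable_pi_iff]
    intro k
    exact (measurable_pi_apply (σ k)).comp (hSm N)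
  let Q : (N : ℕ) → Measure (Fin s → Ph) := fun N =>
    ∑ σ : Fin s ↪ Fin N, (P N).map (fun (Z : Fin N → Ph) (k : Fin s) => S N Z (σ k))
  let M : Measure (Fin s → Ph) :=
    Measure.sum (fun N => ENNReal.ofReal (c * aw (mu ε) N) • Q N)
  have hPfin : ∀ N, P N univ = ENNReal.ofReal (z N) := by
    intro N
    simp only [P]
    rw [withDensity_apply _ MeasurableSet.univ, setLIntegral_univ,
      ← ofReal_integral_eq_lintegral_ofReal (integrable_wt h ε N)
        (Eventually.of_forall fun Z => wt_nonneg h.nonneg ε Z)]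
  have hPf : ∀ N, IsFiniteMeasure (P N) := fun N => ⟨by
    rw [hPfin]
    exact ENNReal.ofReal_lt_top⟩
  have hQuniv : ∀ N, Q N univ = ENNReal.ofReal ((N.descFactorial s : ℝ) * z N) := by
    intro N
    simp only [Q]
    rw [Measure.finsetSum_apply]
    have : ∀ σ : Fin s ↪ Fin N,
        ((P N).map (fun (Z : Fin N → Ph) (k : Fin s) => S N Z (σ k))) univ =
          ENNReal.ofReal (z N) := by
      intro σ
      rw [Measure.map_apply (hProj N σ) MeasurableSet.univ, preimage_univ, hPfin]
    simp_rw [this]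
    rw [Finset.sum_const, Finset.card_univ, Fintype.card_embedding_eq, Fintype.card_fin,
      Fintype.card_fin, nsmul_eq_mul, ENNReal.ofReal_mul (Nat.cast_nonneg _),
      ENNReal.ofReal_natCast]
  have hsumm : Summable (fun N => c * aw (mu ε) N * ((N.descFactorial s : ℝ) * z N)) := by
    have := (summable_aw_desc (μ := mu ε) s z 1 hμ.le hcs.abs_le).mul_left c
    refine this.congr fun N => ?_
    ring
  have hMfin : IsFiniteMeasure M := by
    constructor
    have hM1 : M univ = ∑' N, ENNReal.ofReal (c * aw (mu ε) N * ((N.descFactorial s : ℝ) * z N)) := by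
      simp only [M]
      rw [Measure.sum_apply _ MeasurableSet.univ]
      refine tsum_congr fun N => ?_
      rw [Measure.smul_apply, hQuniv, smul_eq_mul,
        ← ENNReal.ofReal_mul (mul_nonneg hc0.le (aw_nonneg hμ.le N))]
    rw [hM1]
    rw [← ENNReal.ofReal_tsum_of_nonneg (fun N => ?_) hsumm]
    · exact ENNReal.ofReal_lt_top
    · exact mul_nonneg (mul_nonneg hc0.le (aw_nonneg hμ.le N))
        (mul_nonneg (Nat.cast_nonneg _) (hcs.nonneg N))
  have hMac : M ≪ volume := by
    intro A hA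
    simp only [M]
    rw [Measure.sum_apply_eq_zero]
    intro N
    rw [Measure.smul_apply, smul_eq_mul, mul_eq_zero]
    right
    simp only [Q]
    rw [Measure.finsetSum_apply]
    refine Finset.sum_eq_zero fun σ _ => ?_
    have hq : Measure.QuasiMeasurePreserving
        (fun (Z : Fin N → Ph) (k : Fin s) => S N Z (σ k)) volume volume :=
      (qmp_comp_embedding σ).comp ⟨hSm N, hSac N⟩
    have hac : P N ≪ volume := withDensity_absolutelyContinuous _ _
    exact (hac.map (hProj N σ)).trans hq.absolutelyContinuous hA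
  refine ⟨M, hMfin, hMac, fun a ham => ?_, fun a ham ha => ?_⟩
  · -- the formula in `[0, ∞]`
    simp only [M]
    rw [lintegral_sum_measure, expectation, gasSum_one h hε, gasSum_eq h.nonneg,
      ENNReal.div_eq_inv_mul, ← mul_assoc]
    have hcc : ENNReal.ofReal ((ε ^ 2) ^ s) * (ENNReal.ofReal (partitionFn f₀ ε))⁻¹ =
        ENNReal.ofReal c := by
      rw [hc, ENNReal.ofReal_mul (by positivity), ENNReal.ofReal_inv_of_pos hΞ]
      congr 2
      unfold mu
      rw [inv_pow, inv_inv]
    rw [hcc, ← ENNReal.tsum_mul_left]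
    refine tsum_congr fun N => ?_
    rw [lintegral_smul_measure, ENNReal.ofReal_mul hc0.le, smul_eq_mul, mul_assoc]
    congr 2
    simp only [Q]
    rw [lintegral_finsetSum_measure]
    have h1 : ∀ Z : Fin N → Ph, ENNReal.ofReal (wt f₀ ε Z) *
        ∑ σ : Fin s ↪ Fin N, a (fun k => flow Φ ε t Z (σ k)) =
          ∑ σ : Fin s ↪ Fin N, ENNReal.ofReal (wt f₀ ε Z) * a (fun k => S N Z (σ k)) := by
      intro Z
      rw [Finset.mul_sum]
      refine Finset.sum_congr rfl fun σ _ => ?_
      by_cases hZ : Z ∈ excl ε N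
      · rw [hSe N Z hZ]
      · rw [wt, indicator_of_notMem hZ, ENNReal.ofReal_zero, zero_mul, zero_mul]
    simp only [h1]
    rw [lintegral_finsetSum]
    · refine Finset.sum_congr rfl fun σ _ => ?_
      rw [lintegral_map ham (hProj N σ)]
      exact lintegral_withDensity_eq_lintegral_mul (volume : Measure (Fin N → Ph))
        (measurable_wt h.meas ε).ennreal_ofReal (ham.comp (hProj N σ))
    · intro σ _
      exact (measurable_wt h.meas ε).ennreal_ofReal.mul (ham.comp (hProj N σ))
  · -- the formula for real observables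
    obtain ⟨C, hC⟩ := ha
    have hint : Integrable a M :=
      Integrable.of_bound ham.aestronglyMeasurable C (Eventually.of_forall fun z => by
        rw [Real.norm_eq_abs]
        exact hC z)
    simp only [M] at hint ⊢
    rw [integral_sum_measure hint, expect_eq, ← mul_assoc, ← hc, ← tsum_mul_left]
    refine tsum_congr fun N => ?_
    rw [integral_smul_measure, ENNReal.toReal_ofReal (mul_nonneg hc0.le (aw_nonneg hμ.le N)),
      smul_eq_mul, ← mul_assoc]
    congr 1
    simp only [Q]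
    rw [sum_embedding_integral h (fun N => ⟨S N, hSm N, hSac N, hSe N⟩) N a ham ⟨C, hC⟩]
    rw [integral_finsetSum_measure]
    · refine Finset.sum_congr rfl fun σ _ => ?_
      rw [integral_map (hProj N σ).aemeasurable ham.aestronglyMeasurable]
      simp only [P]
      rw [integral_withDensity_eq_integral_toReal_smul
        (measurable_wt h.meas ε).ennreal_ofReal
        (Eventually.of_forall fun Z => ENNReal.ofReal_lt_top)]
      refine integral_congr_ae (Eventually.of_forall fun Z => ?_)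
      simp only [smul_eq_mul]
      rw [ENNReal.toReal_ofReal (wt_nonneg h.nonneg ε Z)]
      by_cases hZ : Z ∈ excl ε N
      · rw [hSe N Z hZ]
      · rw [wt, indicator_of_notMem hZ, zero_mul, zero_mul]
    · intro σ _
      have : IsFiniteMeasure ((P N).map (fun (Z : Fin N → Ph) (k : Fin s) => S N Z (σ k))) :=
        Measure.isFiniteMeasure_map _ _
      exact Integrable.of_bound ham.aestronglyMeasurable C (Eventually.of_forall fun z => by
        rw [Real.norm_eq_abs]
        exact hC z)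

end Vale.Agent.P119.H369
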